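import Crest.Agent.S85.Good

set_option autoImplicit false

/-!
# S0085: the base family (Majority with a tie break) and the iteration
-/
namespace Crest.Agent.S85

/-- the sum of the signs -/
noncomputable def tot {n : ℕ} (x : Fin n → Bool) : ℝ := ∑ i, sg (x i)

theorem sum_succ {n : ℕ} (φ : ℝ → ℝ) :
    ∑ x : Fin (n + 1) → Bool, φ (tot x) = ∑ x : Fin n → Bool, (φ (tot x + 1) + φ (tot x - 1)) := by
  have h1 : ∑ x : Fin (n + 1) → Bool, φ (tot x)
      = ∑ p : Bool × (Fin n → Bool), φ (tot (Fin.cons p.1 p.2 : Fin (n + 1) → Bool)) := by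
    symm
    refine Fintype.sum_equiv (Fin.consEquiv (fun _ => Bool)) _ _ (fun p => ?_)
    rfl
  rw [h1, Fintype.sum_prod_type, Fintype.sum_bool, ← Finset.sum_add_distrib]
  refine Finset.sum_congr rfl fun x _ => ?_
  have h2 : ∀ b : Bool, tot (Fin.cons b x : Fin (n + 1) → Bool) = tot x + sg b := by
    intro b
    unfold tot
    rw [Fin.sum_univ_succ]
    simp [add_comm]
  rw [h2, h2]
  simp [sub_eq_add_neg]

theorem mom2 (n : ℕ) : ∑ x : Fin n → Bool, tot x ^ 2 = n * 2 ^ n := by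
  induction n with
  | zero => simp [tot]
  | succ n ih =>
    rw [sum_succ (fun s => s ^ 2)]
    have : ∀ x : Fin n → Bool, (tot x + 1) ^ 2 + (tot x - 1) ^ 2 = 2 * tot x ^ 2 + 2 := by
      intro x; ring
    simp_rw [this]
    rw [Finset.sum_add_distrib, ← Finset.mul_sum, ih]
    simp
    ring

theorem mom4 (n : ℕ) : ∑ x : Fin n → Bool, tot x ^ 4 = (3 * n ^ 2 - 2 * n) * 2 ^ n := by
  induction n with
  | zero => simp [tot]
  | succ n ih =>
    rw [sum_succ (fun s => s ^ 4)]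
    have : ∀ x : Fin n → Bool, (tot x + 1) ^ 4 + (tot x - 1) ^ 4
        = 2 * tot x ^ 4 + 12 * tot x ^ 2 + 2 := by
      intro x; ring
    simp_rw [this]
    rw [Finset.sum_add_distrib, Finset.sum_add_distrib, ← Finset.mul_sum, ← Finset.mul_sum,
      ih, mom2]
    simp
    ring

theorem abs_bound (n : ℕ) (hn : 1 ≤ n) (s : ℝ) :
    s ^ 2 / Real.sqrt n - (4 / 27) * s ^ 4 / (Real.sqrt n) ^ 3 ≤ |s| := by
  have hq : 0 < Real.sqrt n := Real.sqrt_pos.2 (by exact_mod_cast hn)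
  set q := Real.sqrt n
  have hs : s ^ 2 = |s| ^ 2 := (sq_abs s).symm
  have hs4 : s ^ 4 = |s| ^ 4 := by
    rw [← abs_pow, abs_of_nonneg]; positivity
  rw [hs, hs4]
  obtain ⟨u, hu0, hu⟩ : ∃ u : ℝ, 0 ≤ u ∧ |s| = u * q :=
    ⟨|s| / q, by positivity, by field_simp⟩
  rw [hu]
  have h1 : (u * q) ^ 2 / q - 4 / 27 * (u * q) ^ 4 / q ^ 3 = q * (u ^ 2 - 4 / 27 * u ^ 4) := by
    field_simp
  rw [h1]
  have h2 : u ^ 2 - 4 / 27 * u ^ 4 ≤ u := by
    nlinarith [mul_nonneg hu0 (mul_nonneg (sq_nonneg (u - 3 / 2)) (by linarith : (0:ℝ) ≤ u + 3)),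
      sq_nonneg (u - 3 / 2), sq_nonneg u]
  nlinarith

/-- majority, ties broken by the first coordinate -/
noncomputable def maj (n : ℕ) (x : Fin (n + 1) → Bool) : Bool :=
  if 0 < tot x then true else if tot x < 0 then false else x 0

theorem sg_maj_mul (n : ℕ) (x : Fin (n + 1) → Bool) : sg (maj n x) * tot x = |tot x| := by
  unfold maj
  split_ifs with h1 h2
  · simp [abs_of_pos h1]
  · simp [abs_of_neg h2]
  · have : tot x = 0 := le_antisymm (not_lt.1 h1) (not_lt.1 h2)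
    simp [this]

theorem maj_not (n : ℕ) (x : Fin (n + 1) → Bool) :
    sg (maj n (fun i => !(x i))) = - sg (maj n x) := by
  have h : tot (fun i => !(x i)) = - tot x := by
    unfold tot
    simp_rw [sg_not]
    rw [Finset.sum_neg_distrib]
  unfold maj
  rw [h]
  rcases lt_trichotomy (tot x) 0 with h1 | h1 | h1
  · rw [if_pos (by linarith), if_neg (by linarith), if_pos h1]; simp
  · rw [h1]; simp [sg_not]
  · rw [if_neg (by linarith), if_pos (by linarith), if_pos h1]; simp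

theorem good_base (N : ℕ) (hN : 1 ≤ N) : Good N (5 / 9) := by
  obtain ⟨n, rfl⟩ : ∃ n, N = n + 1 := ⟨N - 1, by omega⟩
  refine ⟨n + 1, maj n, ?_, ?_, ?_⟩
  · unfold num
    simp only [Finset.prod_empty, mul_one]
    have h1 : ∑ x : Fin (n + 1) → Bool, sg (maj n x) = ∑ x : Fin (n + 1) → Bool, - sg (maj n x) := by
      refine Fintype.sum_equiv (Equiv.arrowCongr (Equiv.refl _) Equiv.boolNot) _ _ (fun x => ?_)
      have := maj_not n x
      have h2 : (Equiv.arrowCongr (Equiv.refl (Fin (n+1))) Equiv.boolNot) x = fun i => !(x i) := by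
        ext i; simp [Equiv.arrowCongr]
      rw [h2, this, neg_neg]
    rw [Finset.sum_neg_distrib] at h1
    linarith
  · intro S hS
    have := Finset.card_le_univ S
    rw [Fintype.card_fin] at this
    omega
  · unfold W1 num
    have h1 : ∑ i, ∑ x : Fin (n + 1) → Bool, sg (maj n x) * ∏ j ∈ ({i} : Finset (Fin (n+1))), sg (x j)
        = ∑ x : Fin (n + 1) → Bool, |tot x| := by
      rw [Finset.sum_comm]
      refine Finset.sum_congr rfl fun x _ => ?_
      simp only [Finset.prod_singleton]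
      rw [← Finset.mul_sum]
      exact sg_maj_mul n x
    rw [h1, le_div_iff₀ (by positivity)]
    have hq : 0 < Real.sqrt ((n + 1 : ℕ) : ℝ) := Real.sqrt_pos.2 (by positivity)
    have hq2 : Real.sqrt ((n + 1 : ℕ) : ℝ) ^ 2 = ((n + 1 : ℕ) : ℝ) := Real.sq_sqrt (by positivity)
    refine le_trans ?_ (Finset.sum_le_sum fun x _ => abs_bound (n + 1) (by omega) (tot x))
    rw [Finset.sum_sub_distrib, ← Finset.sum_div, ← Finset.sum_div, ← Finset.mul_sum, mom2, mom4]
    set q := Real.sqrt ((n + 1 : ℕ) : ℝ)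
    rw [← hq2]
    have h3 : q ^ 2 * 2 ^ (n + 1) / q - 4 / 27 * ((3 * (q ^ 2) ^ 2 - 2 * q ^ 2) * 2 ^ (n + 1)) / q ^ 3
        = (q - 4 / 27 * (3 * q - 2 / q)) * 2 ^ (n + 1) := by
      field_simp
    rw [h3]
    refine mul_le_mul_of_nonneg_right ?_ (by positivity)
    have : 0 ≤ 2 / q := by positivity
    linarith

/-- one round of the iteration -/
theorem iterate {n : ℕ} (f : (Fin n → Bool) → Bool) (w : Fin n → ℕ) (D : ℕ) (ρ : ℝ)
    (hw : ∀ i, 1 ≤ w i) (hρ0 : 0 ≤ ρ)
    (hf0 : num f ∅ = 0)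
    (hf : ∀ S : Finset (Fin n), D < ∑ i ∈ S, w i → num f S = 0)
    (hpos : ∀ i, 0 ≤ num f {i})
    (hρ : ρ * Real.sqrt D ≤ ∑ i, num f {i} / 2 ^ n * Real.sqrt (w i)) (k : ℕ) :
    ∀ M : ℕ, 1 ≤ M → Good (D ^ k * M) (5 / 9 * ρ ^ k) := by
  induction k with
  | zero => intro M hM; simpa using good_base M hM
  | succ k ih =>
    intro M hM
    have h1 := step f w D ρ hf0 hf hpos hρ (D ^ k * M) (5 / 9 * ρ ^ k) (by positivity) (by
      intro i
      have := ih (w i * M) (Nat.mul_pos (hw i) hM)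
      have e : w i * (D ^ k * M) = D ^ k * (w i * M) := by ring
      rw [e]; exact this)
    have e1 : D ^ (k + 1) * M = D * (D ^ k * M) := by ring
    have e2 : 5 / 9 * ρ ^ (k + 1) = 5 / 9 * ρ ^ k * ρ := by ring
    rw [e1, e2]; exact h1

/-- **from a winning base function to the theorem** -/
theorem from_base {n : ℕ} (f : (Fin n → Bool) → Bool) (w : Fin n → ℕ) (D : ℕ) (ρ : ℝ)
    (hw : ∀ i, 1 ≤ w i) (hD : 1 ≤ D) (hρ1 : 1 < ρ)
    (hf0 : num f ∅ = 0)
    (hf : ∀ S : Finset (Fin n), D < ∑ i ∈ S, w i → num f S = 0)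
    (hpos : ∀ i, 0 ≤ num f {i})
    (hρ : ρ * Real.sqrt D ≤ ∑ i, num f {i} / 2 ^ n * Real.sqrt (w i))
    (C : ℝ) :
    ∃ n : ℕ, ∃ f : (Fin n → Bool) → Bool, ∃ d : ℕ,
      (∃ x y, f x ≠ f y) ∧
      (∀ S : Finset (Fin n), d < S.card →
        ∑ x : Fin n → Bool, ((if f x then (1 : ℝ) else -1) * ∏ i ∈ S, (if x i then (1 : ℝ) else -1)) = 0) ∧
      C * Real.sqrt d <
        ∑ i : Fin n, (∑ x : Fin n → Bool, ((if f x then (1 : ℝ) else -1) * (if x i then (1 : ℝ) else -1))) / 2 ^ n := by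
  obtain ⟨k, hk⟩ := pow_unbounded_of_one_lt (9 / 5 * C) hρ1
  obtain ⟨n', g, hg0, hgd, hgW⟩ := iterate f w D ρ hw (by linarith) hf0 hf hpos hρ k 1 le_rfl
  refine ⟨n', g, D ^ k * 1, ?_, hgd, ?_⟩
  · by_contra hcon
    push Not at hcon
    have h1 : num g ∅ = 2 ^ n' * sg (g (fun _ => true)) := by
      unfold num
      simp only [Finset.prod_empty, mul_one]
      rw [Finset.sum_congr rfl fun x _ => by rw [hcon x (fun _ => true)]]
      simp
    rw [hg0] at h1
    have h2 : sg (g (fun _ => true)) ≠ 0 := by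
      cases g (fun _ => true) <;> simp
    have : (2 : ℝ) ^ n' * sg (g (fun _ => true)) ≠ 0 := mul_ne_zero (by positivity) h2
    exact this h1.symm
  · have h3 : (∑ i : Fin n', (∑ x : Fin n' → Bool,
        ((if g x then (1 : ℝ) else -1) * (if x i then (1 : ℝ) else -1))) / 2 ^ n') = W1 g := by
      unfold W1 num
      rw [Finset.sum_div]
      refine Finset.sum_congr rfl fun i _ => ?_
      congr 1
      refine Finset.sum_congr rfl fun x _ => ?_
      rw [Finset.prod_singleton]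
      rfl
    rw [h3]
    refine lt_of_lt_of_le ?_ hgW
    have hD' : 0 < Real.sqrt ((D ^ k * 1 : ℕ) : ℝ) := Real.sqrt_pos.2 (by
      have : 0 < D ^ k * 1 := by positivity
      exact_mod_cast this)
    refine mul_lt_mul_of_pos_right ?_ hD'
    linarith

end Crest.Agent.S85
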