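import Crest.Agent.S85.Defs

set_option autoImplicit false

namespace Crest.Agent.S85

namespace BaseMaj

/-- the sign of a Boolean -/
noncomputable abbrev sp (b : Bool) : ℝ := sg b

/-- sum of the signs -/
noncomputable def S {n : ℕ} (x : Fin n → Bool) : ℝ := ∑ i, sp (x i)

lemma sum_cons {n : ℕ} (F : (Fin (n + 1) → Bool) → ℝ) :
    ∑ x : Fin (n + 1) → Bool, F x = ∑ y : Fin n → Bool, (F (Fin.cons true y) + F (Fin.cons false y)) := by
  rw [← (Fin.consEquiv (fun _ : Fin (n + 1) => Bool)).sum_comp, Fintype.sum_prod_type]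
  simp [Finset.sum_add_distrib, Fin.consEquiv]

lemma S_cons {n : ℕ} (b : Bool) (y : Fin n → Bool) :
    S (Fin.cons b y : Fin (n + 1) → Bool) = sp b + S y := by
  unfold S
  rw [Fin.sum_univ_succ]
  simp

lemma M2 (n : ℕ) : ∑ x : Fin n → Bool, S x ^ 2 = n * 2 ^ n := by
  induction n with
  | zero => simp [S]
  | succ n ih =>
    rw [sum_cons]
    have h : ∀ y : Fin n → Bool, S (Fin.cons true y : Fin (n + 1) → Bool) ^ 2
        + S (Fin.cons false y : Fin (n + 1) → Bool) ^ 2 = 2 + 2 * S y ^ 2 := by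
      intro y
      rw [S_cons, S_cons]
      simp [sp, sg]
      ring
    rw [Finset.sum_congr rfl (fun y _ => h y), Finset.sum_add_distrib, ← Finset.mul_sum, ih]
    simp
    ring

lemma M4 (n : ℕ) : ∑ x : Fin n → Bool, S x ^ 4 = (3 * (n : ℝ) ^ 2 - 2 * n) * 2 ^ n := by
  induction n with
  | zero => simp [S]
  | succ n ih =>
    rw [sum_cons]
    have h : ∀ y : Fin n → Bool, S (Fin.cons true y : Fin (n + 1) → Bool) ^ 4
        + S (Fin.cons false y : Fin (n + 1) → Bool) ^ 4 = 2 + 12 * S y ^ 2 + 2 * S y ^ 4 := by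
      intro y
      rw [S_cons, S_cons]
      simp [sp, sg]
      ring
    rw [Finset.sum_congr rfl (fun y _ => h y), Finset.sum_add_distrib, Finset.sum_add_distrib,
      ← Finset.mul_sum, ← Finset.mul_sum, ih, M2]
    simp
    ring

lemma abs_ge (s r : ℝ) (hr : 0 < r) : 3 / 4 * (s ^ 2 / r - s ^ 4 / (12 * r ^ 3)) ≤ |s| := by
  set u : ℝ := |s| / r with hu
  have hu0 : 0 ≤ u := by positivity
  have hs : |s| = u * r := by rw [hu]; field_simp
  have hs2 : s ^ 2 = (u * r) ^ 2 := by rw [← hs, sq_abs]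
  have hs4 : s ^ 4 = (u * r) ^ 4 := by
    have : s ^ 4 = (s ^ 2) ^ 2 := by ring
    rw [this, hs2]; ring
  rw [hs2, hs4, hs]
  have e : 3 / 4 * ((u * r) ^ 2 / r - (u * r) ^ 4 / (12 * r ^ 3))
      = r * (3 / 4 * (u ^ 2 - u ^ 4 / 12)) := by
    field_simp
  rw [e, mul_comm u r]
  apply mul_le_mul_of_nonneg_left _ hr.le
  have : u - 3 / 4 * (u ^ 2 - u ^ 4 / 12) = u * ((u - 2) ^ 2 * (u + 4)) / 16 := by ring
  have h2 : 0 ≤ u * ((u - 2) ^ 2 * (u + 4)) / 16 := by positivity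
  linarith

/-- `E|S| ≥ (9/16) √n` -/
lemma abs_moment (n : ℕ) (hn : 1 ≤ n) :
    9 / 16 * Real.sqrt n * 2 ^ n ≤ ∑ x : Fin n → Bool, |S x| := by
  have hn' : (1 : ℝ) ≤ n := by exact_mod_cast hn
  set r : ℝ := Real.sqrt n with hr
  have hr0 : 0 < r := Real.sqrt_pos.mpr (by linarith)
  have hr2 : r ^ 2 = n := Real.sq_sqrt (by linarith)
  have h1 : ∑ x : Fin n → Bool, 3 / 4 * (S x ^ 2 / r - S x ^ 4 / (12 * r ^ 3))
      ≤ ∑ x : Fin n → Bool, |S x| :=
    Finset.sum_le_sum fun x _ => abs_ge _ _ hr0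
  refine le_trans ?_ h1
  rw [← Finset.mul_sum, Finset.sum_sub_distrib, ← Finset.sum_div, ← Finset.sum_div, M2, M4]
  have e : (3 : ℝ) / 4 * ((n : ℝ) * 2 ^ n / r - (3 * (n : ℝ) ^ 2 - 2 * n) * 2 ^ n / (12 * r ^ 3))
      = (9 / 16 * r + 1 / 8 / r) * 2 ^ n := by
    rw [← hr2]
    field_simp
    ring
  rw [e]
  apply mul_le_mul_of_nonneg_right _ (by positivity)
  have : 0 ≤ 1 / 8 / r := by positivity
  linarith

/-- majority -/
noncomputable def maj {n : ℕ} (x : Fin n → Bool) : Bool := decide (0 < S x)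

lemma sp_maj {n : ℕ} (x : Fin n → Bool) : sp (maj x) * S x = |S x| := by
  unfold maj sp sg
  by_cases h : 0 < S x
  · simp [h, abs_of_pos h]
  · simp [h, abs_of_nonpos (not_lt.mp h)]

lemma S_not {n : ℕ} (x : Fin n → Bool) : S (fun i => !(x i)) = - S x := by
  unfold S
  rw [← Finset.sum_neg_distrib]
  apply Finset.sum_congr rfl
  intro i _
  have h : ∀ b : Bool, sp (!b) = - sp b := by
    intro b
    cases b <;> simp [sp, sg]
  exact h (x i)

lemma S_int {n : ℕ} (x : Fin n → Bool) :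
    S x = ((2 * ((Finset.univ.filter fun i => x i = true).card : ℤ) - n : ℤ) : ℝ) := by
  unfold S
  have h : ∀ i, sp (x i) = 2 * (if x i = true then (1 : ℝ) else 0) - 1 := by
    intro i
    unfold sp sg
    by_cases h : x i = true <;> simp [h] <;> norm_num
  rw [Finset.sum_congr rfl (fun i _ => h i), Finset.sum_sub_distrib, ← Finset.mul_sum]
  simp [Finset.sum_ite]

lemma S_ne_zero {n : ℕ} (hn : Odd n) (x : Fin n → Bool) : S x ≠ 0 := by
  rw [S_int]
  intro h
  have h' : (2 * ((Finset.univ.filter fun i => x i = true).card : ℤ) - n : ℤ) = 0 := by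
    exact_mod_cast h
  obtain ⟨k, hk⟩ := hn
  omega

lemma maj_balanced {n : ℕ} (hn : Odd n) : ∑ x : Fin n → Bool, sp (maj x) = 0 := by
  have e : ∑ x : Fin n → Bool, sp (maj x) = ∑ x : Fin n → Bool, sp (maj (fun i => !(x i))) := by
    have := Equiv.sum_comp
      (Equiv.piCongrRight (fun _ : Fin n => (Equiv.boolNot : Bool ≃ Bool)))
      (fun x : Fin n → Bool => sp (maj x))
    rw [← this]
    rfl
  have h : ∀ x : Fin n → Bool, sp (maj (fun i => !(x i))) = - sp (maj x) := by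
    intro x
    unfold maj
    rw [S_not]
    have h0 := S_ne_zero hn x
    unfold sp sg
    rcases lt_trichotomy (S x) 0 with h | h | h
    · have : ¬ (0 < S x) := not_lt.mpr h.le
      have h2 : 0 < - S x := by linarith
      simp [this, h2]
    · exact absurd h h0
    · have h2 : ¬ (0 < - S x) := by linarith
      simp [h, h2]
  rw [Finset.sum_congr rfl (fun x _ => h x), Finset.sum_neg_distrib] at e
  linarith

theorem base_odd (n : ℕ) (hn : Odd n) : ∃ g : (Fin n → Bool) → Bool,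
    (∑ x, sp (g x) = 0) ∧
    9 / 16 * Real.sqrt n ≤ ∑ i : Fin n, (∑ x : Fin n → Bool, sp (g x) * sp (x i)) / 2 ^ n := by
  refine ⟨maj, maj_balanced hn, ?_⟩
  have hn1 : 1 ≤ n := by obtain ⟨k, hk⟩ := hn; omega
  have e : ∑ i : Fin n, (∑ x : Fin n → Bool, sp (maj x) * sp (x i)) / 2 ^ n
      = (∑ x : Fin n → Bool, |S x|) / 2 ^ n := by
    rw [← Finset.sum_div, Finset.sum_comm]
    congr 1
    apply Finset.sum_congr rfl
    intro x _
    rw [← Finset.mul_sum, ← sp_maj x]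
    rfl
  rw [e, le_div_iff₀ (by positivity)]
  exact abs_moment n hn1

end BaseMaj

open BaseMaj in
/-- Base family: at every scale `N` a balanced function on at most `N` variables (hence of degree
at most `N`) whose level-one coefficients sum to at least `√N / 3`. -/
theorem base_maj (N : ℕ) (hN : 1 ≤ N) : ∃ n : ℕ, n ≤ N ∧ ∃ g : (Fin n → Bool) → Bool,
    (∑ x, sp (g x) = 0) ∧
    1 / 3 * Real.sqrt N ≤ ∑ i : Fin n, (∑ x : Fin n → Bool, sp (g x) * sp (x i)) / 2 ^ n := by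
  rcases Nat.even_or_odd N with hE | hO
  · obtain ⟨k, hk⟩ := hE
    have hodd : Odd (N - 1) := ⟨k - 1, by omega⟩
    obtain ⟨g, h0, h1⟩ := base_odd (N - 1) hodd
    refine ⟨N - 1, by omega, g, h0, le_trans ?_ h1⟩
    have h2 : (N : ℝ) / 2 ≤ ((N - 1 : ℕ) : ℝ) := by
      rw [Nat.cast_sub hN]
      have : (2 : ℝ) ≤ N := by exact_mod_cast (by omega : 2 ≤ N)
      push_cast
      linarith
    have h3 : Real.sqrt ((N : ℝ) / 2) ≤ Real.sqrt ((N - 1 : ℕ) : ℝ) := Real.sqrt_le_sqrt h2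
    have h4 : 16 / 27 * Real.sqrt N ≤ Real.sqrt ((N : ℝ) / 2) := by
      apply Real.le_sqrt_of_sq_le
      rw [mul_pow, Real.sq_sqrt (by positivity)]
      have : (0 : ℝ) ≤ N := by positivity
      nlinarith
    nlinarith
  · obtain ⟨g, h0, h1⟩ := base_odd N hO
    refine ⟨N, le_rfl, g, h0, le_trans ?_ h1⟩
    have : 0 ≤ Real.sqrt N := Real.sqrt_nonneg _
    nlinarith

/-- Base family in terms of `Good`. -/
theorem base_third (N : ℕ) (hN : 1 ≤ N) : ∃ (n : ℕ) (f : (Fin n → Bool) → Bool),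
    Good f N ((1 / 3 : ℝ) * Real.sqrt N) := by
  obtain ⟨n, hn, g, h0, h1⟩ := base_maj N hN
  refine ⟨n, g, h0, ?_, ?_⟩
  · intro S hS
    exfalso
    have := Finset.card_le_univ S
    rw [Fintype.card_fin] at this
    omega
  · rw [Fintype.card_fin]
    exact h1

end Crest.Agent.S85
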