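import Crest.Agent.S85.Comp
import Crest.Agent.S85.BaseMaj

set_option autoImplicit false
set_option linter.unusedSectionVars false
set_option linter.unusedVariables false

/-! Composition of biased Boolean functions. -/

namespace Crest.Agent.S85

open Finset

/-- `f` has mean `b`, degree at most `d`, linear coefficients sum to at least `W` -/
structure GoodB {ι : Type} [Fintype ι] [DecidableEq ι] (f : (ι → Bool) → Bool) (b : ℝ) (d : ℕ)
    (W : ℝ) : Prop where
  mean : ∑ x, sg (f x) = b * 2 ^ Fintype.card ι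
  deg : ∀ S : Finset ι, d < S.card → ∑ x, (sg (f x) * ∏ i ∈ S, sg (x i)) = 0
  wt : W ≤ ∑ i, (∑ x, sg (f x) * sg (x i)) / 2 ^ Fintype.card ι

lemma GoodB.mono {ι : Type} [Fintype ι] [DecidableEq ι] {f : (ι → Bool) → Bool} {b : ℝ}
    {d d' : ℕ} {W W' : ℝ} (h : GoodB f b d W) (hd : d ≤ d') (hW : W' ≤ W) : GoodB f b d' W' :=
  ⟨h.mean, fun S hS => h.deg S (lt_of_le_of_lt hd hS), le_trans hW h.wt⟩

lemma GoodB.equiv {ι κ : Type} [Fintype ι] [DecidableEq ι] [Fintype κ] [DecidableEq κ]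
    (e : ι ≃ κ) {f : (ι → Bool) → Bool} {b : ℝ} {d : ℕ} {W : ℝ} (h : GoodB f b d W) :
    GoodB (fun y : κ → Bool => f (fun i => y (e i))) b d W := by
  have key : ∀ F : (ι → Bool) → ℝ, ∑ y : κ → Bool, F (fun i => y (e i)) = ∑ x, F x := by
    intro F
    exact Fintype.sum_equiv (Equiv.arrowCongr e.symm (Equiv.refl Bool)) _ _ (fun y => rfl)
  have hc : Fintype.card ι = Fintype.card κ := Fintype.card_congr e
  refine ⟨?_, ?_, ?_⟩
  · rw [← hc, ← h.mean, ← key]
  · intro S hS
    have h1 := h.deg (S.map e.symm.toEmbedding) (by simpa using hS)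
    rw [← key] at h1
    rw [← h1]
    refine Finset.sum_congr rfl (fun y _ => ?_)
    congr 1
    rw [Finset.prod_map]
    simp
  · refine le_trans h.wt (le_of_eq ?_)
    rw [← hc]
    refine Fintype.sum_equiv e _ _ (fun i => ?_)
    congr 1
    rw [← key]

lemma Good.toB {ι : Type} [Fintype ι] [DecidableEq ι] {f : (ι → Bool) → Bool} {d : ℕ} {W : ℝ}
    (h : Good f d W) : GoodB f 0 d W :=
  ⟨by rw [h.bal]; ring, h.deg, h.wt⟩

lemma GoodB.toGood {ι : Type} [Fintype ι] [DecidableEq ι] {f : (ι → Bool) → Bool} {d : ℕ} {W : ℝ}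
    (h : GoodB f 0 d W) : Good f d W :=
  ⟨by rw [h.mean]; ring, h.deg, h.wt⟩

/-- multilinear extension in probability form -/
noncomputable def ext {ι : Type} [Fintype ι] [DecidableEq ι] (f : (ι → Bool) → Bool)
    (b : ι → ℝ) : ℝ := ∑ β : ι → Bool, sg (f β) * ∏ i, ((1 + sg (β i) * b i) / 2)

/-- its partial derivatives -/
noncomputable def der {ι : Type} [Fintype ι] [DecidableEq ι] (f : (ι → Bool) → Bool)
    (b : ι → ℝ) (j : ι) : ℝ :=
  ∑ β : ι → Bool, sg (f β) * ((sg (β j) / 2) * ∏ i ∈ Finset.univ.erase j,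
    ((1 + sg (β i) * b i) / 2))

section comp

variable {ι : Type} [Fintype ι] [DecidableEq ι] {κ : ι → Type} [∀ i, Fintype (κ i)]
  [∀ i, DecidableEq (κ i)]

/-- the inner factor in probability form -/
noncomputable def PP (g : ∀ i, (κ i → Bool) → Bool) (T : ∀ i, Finset (κ i)) (i : ι)
    (c : Bool) : ℝ :=
  ∑ y : κ i → Bool, (1 + sg c * sg (g i y)) / 2 * ∏ a ∈ T i, sg (y a)

lemma main' (f : (ι → Bool) → Bool) (g : ∀ i, (κ i → Bool) → Bool) (T : ∀ i, Finset (κ i)) :
    cf (cmp f g) (Finset.univ.sigma T) = ∑ β : ι → Bool, sg (f β) * ∏ i, PP g T i (β i) := by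
  have hchi : ∀ x : (Σ i, κ i) → Bool, ∏ i ∈ Finset.univ.sigma T, sg (x i)
      = ∏ i, ∏ a ∈ T i, sg (x ⟨i, a⟩) := by
    intro x
    rw [Finset.prod_sigma]
  have hind : ∀ x : (Σ i, κ i) → Bool, sg (cmp f g x) = ∑ β : ι → Bool, sg (f β) *
      ∏ i, ((1 + sg (β i) * sg (g i (fun a => x ⟨i, a⟩))) / 2) := by
    intro x
    rw [Finset.sum_eq_single (fun i => g i (fun a => x ⟨i, a⟩))]
    · simp only [sg_sq]
      norm_num
      rfl
    · intro β _ hβ
      obtain ⟨i, hi⟩ := Function.ne_iff.mp hβ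
      rw [Finset.prod_eq_zero (Finset.mem_univ i), mul_zero]
      revert hi
      cases β i <;> cases g i (fun a => x ⟨i, a⟩) <;> simp [sg]
    · intro h
      exact absurd (Finset.mem_univ _) h
  rw [cf]
  have h1 : ∀ x : (Σ i, κ i) → Bool,
      (sg (cmp f g x) * ∏ i ∈ Finset.univ.sigma T, sg (x i))
      = ∑ β : ι → Bool, sg (f β) * ∏ i, ((1 + sg (β i) * sg (g i (fun a => x ⟨i, a⟩))) / 2
          * ∏ a ∈ T i, sg (x ⟨i, a⟩)) := by
    intro x
    rw [hchi, hind, Finset.sum_mul]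
    refine Finset.sum_congr rfl (fun S _ => ?_)
    rw [Finset.prod_mul_distrib, mul_assoc]
  rw [Finset.sum_congr rfl (fun x _ => h1 x), Finset.sum_comm]
  refine Finset.sum_congr rfl (fun β _ => ?_)
  rw [← Finset.mul_sum]
  congr 1
  have h2 := Finset.prod_univ_sum (fun i : ι => (Finset.univ : Finset (κ i → Bool)))
    (fun i y => (1 + sg (β i) * sg (g i y)) / 2 * ∏ a ∈ T i, sg (y a))
  rw [Fintype.piFinset_univ] at h2
  unfold PP
  rw [h2]
  exact Fintype.sum_equiv (Equiv.piCurry (fun (i : ι) (_ : κ i) => Bool)) _ _ (fun x => rfl)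

lemma PP_empty (g : ∀ i, (κ i → Bool) → Bool) (T : ∀ i, Finset (κ i)) (i : ι) (c : Bool)
    (b : ℝ) (hb : ∑ y, sg (g i y) = b * 2 ^ Fintype.card (κ i)) (hT : T i = ∅) :
    PP g T i c = 2 ^ Fintype.card (κ i) * ((1 + sg c * b) / 2) := by
  simp only [PP, hT, Finset.prod_empty, mul_one]
  rw [← Finset.sum_div, Finset.sum_add_distrib, ← Finset.mul_sum, hb]
  simp
  ring

lemma PP_single (g : ∀ i, (κ i → Bool) → Bool) (T : ∀ i, Finset (κ i)) (i : ι) (c : Bool)
    (a : κ i) (hT : T i = {a}) :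
    PP g T i c = (sg c / 2) * ∑ y, sg (g i y) * sg (y a) := by
  simp only [PP, hT, Finset.prod_singleton]
  have h0 := sum_chi ({a} : Finset (κ i)) (Finset.singleton_ne_empty a)
  simp only [Finset.prod_singleton] at h0
  have : ∀ y : κ i → Bool, (1 + sg c * sg (g i y)) / 2 * sg (y a)
      = sg (y a) / 2 + (sg c / 2) * (sg (g i y) * sg (y a)) := fun y => by ring
  rw [Finset.sum_congr rfl (fun y _ => this y), Finset.sum_add_distrib, ← Finset.sum_div, h0,
    ← Finset.mul_sum]
  ring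

/-- composition of biased functions -/
theorem compB (f : (ι → Bool) → Bool)
    (g : ∀ i, (κ i → Bool) → Bool) (b : ι → ℝ) (d : ι → ℕ) (W : ι → ℝ)
    (hg : ∀ i, GoodB (g i) (b i) (d i) (W i)) (D : ℕ)
    (supp : ∀ S : Finset ι, D < ∑ i ∈ S, d i → cf f S = 0)
    (hpos : ∀ i, 0 ≤ der f b i) :
    GoodB (cmp f g) (ext f b) D (∑ i, der f b i * W i) := by
  have hT : ∀ T : Finset (Σ i, κ i),
      T = Finset.univ.sigma (fun i => Finset.univ.filter (fun a => (⟨i, a⟩ : Σ i, κ i) ∈ T)) := by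
    intro T
    ext ⟨i, a⟩
    simp
  have hcardpow : (2 : ℝ) ^ Fintype.card (Σ i, κ i) = ∏ i, (2 : ℝ) ^ Fintype.card (κ i) := by
    rw [Fintype.card_sigma, Finset.prod_pow_eq_pow_sum]
  refine ⟨?_, ?_, ?_⟩
  · have h := main' f g (fun i => (∅ : Finset (κ i)))
    have he : (Finset.univ : Finset ι).sigma (fun i => (∅ : Finset (κ i))) = ∅ := by
      ext ⟨i, a⟩
      simp
    rw [he] at h
    have h1 : cf (cmp f g) ∅ = ∑ x, sg (cmp f g x) := by simp [cf]
    rw [← h1, h, ext, Finset.sum_mul]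
    refine Finset.sum_congr rfl (fun β _ => ?_)
    rw [mul_assoc]
    congr 1
    rw [hcardpow, mul_comm, ← Finset.prod_mul_distrib]
    refine Finset.prod_congr rfl (fun i _ => ?_)
    exact PP_empty g _ i (β i) (b i) (hg i).mean rfl
  · intro T hTc
    have h := main f g (fun i => Finset.univ.filter (fun a => (⟨i, a⟩ : Σ i, κ i) ∈ T))
    rw [← hT T] at h
    have h0 : ∑ S : Finset ι, cf f S * ∏ i, Q g
        (fun i => Finset.univ.filter (fun a => (⟨i, a⟩ : Σ i, κ i) ∈ T)) S i = 0 := by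
      refine Finset.sum_eq_zero (fun S _ => ?_)
      by_cases hc : cf f S = 0
      · rw [hc, zero_mul]
      have hle : ∑ i ∈ S, d i ≤ D := by
        by_contra hlt
        exact hc (supp S (not_le.mp hlt))
      have hcard : T.card = ∑ i, (Finset.univ.filter
          (fun a => (⟨i, a⟩ : Σ i, κ i) ∈ T)).card := by
        conv_lhs => rw [hT T]
        rw [Finset.card_sigma]
      have hlt : ∑ i, (if i ∈ S then d i else 0) < ∑ i, (Finset.univ.filter
          (fun a => (⟨i, a⟩ : Σ i, κ i) ∈ T)).card := by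
        rw [← hcard]
        refine lt_of_le_of_lt ?_ hTc
        refine le_trans (le_of_eq ?_) hle
        simp
      obtain ⟨i, _, hi⟩ := Finset.exists_lt_of_sum_lt hlt
      rw [Finset.prod_eq_zero (Finset.mem_univ i), mul_zero]
      by_cases hiS : i ∈ S
      · rw [Q_mem _ _ _ _ hiS]
        rw [if_pos hiS] at hi
        exact (hg i).deg _ hi
      · rw [if_neg hiS] at hi
        refine Q_not_mem _ _ _ _ hiS ?_
        exact Finset.nonempty_iff_ne_empty.mp (Finset.card_pos.mp hi)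
    rw [h0] at h
    exact (mul_eq_zero.mp h).resolve_left (two_pow_ne _)
  · have hcoef : ∀ (j : ι) (a : κ j),
        (∑ x, sg (cmp f g x) * sg (x ⟨j, a⟩)) / 2 ^ Fintype.card (Σ i, κ i)
          = der f b j * ((∑ y, sg (g j y) * sg (y a)) / 2 ^ Fintype.card (κ j)) := by
      intro j a
      have h := main' f g (fun i => Finset.univ.filter
        (fun b => (⟨i, b⟩ : Σ i, κ i) ∈ ({⟨j, a⟩} : Finset (Σ i, κ i))))
      rw [← hT {⟨j, a⟩}] at h
      have hj : (Finset.univ.filter
        (fun b => (⟨j, b⟩ : Σ i, κ i) ∈ ({⟨j, a⟩} : Finset (Σ i, κ i)))) = {a} := by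
        ext b
        simp
      have hi : ∀ i, i ≠ j → (Finset.univ.filter
        (fun b => (⟨i, b⟩ : Σ i, κ i) ∈ ({⟨j, a⟩} : Finset (Σ i, κ i)))) = ∅ := by
        intro i hij
        ext b
        simp only [Finset.mem_filter, Finset.mem_univ, true_and, Finset.mem_singleton,
          Finset.notMem_empty, iff_false]
        intro hb
        exact hij (congrArg Sigma.fst hb)
      have hcf : cf (cmp f g) {⟨j, a⟩} = ∑ x, sg (cmp f g x) * sg (x ⟨j, a⟩) := by
        simp only [cf, Finset.prod_singleton]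
      rw [hcf] at h
      rw [h, der, Finset.sum_mul, Finset.sum_div]
      refine Finset.sum_congr rfl (fun β _ => ?_)
      have hprod : ∏ i, PP g (fun i => Finset.univ.filter
            (fun b => (⟨i, b⟩ : Σ i, κ i) ∈ ({⟨j, a⟩} : Finset (Σ i, κ i)))) i (β i)
            = ((sg (β j) / 2) * ∑ y, sg (g j y) * sg (y a)) *
              ((∏ i ∈ Finset.univ.erase j, (2 : ℝ) ^ Fintype.card (κ i)) *
              ∏ i ∈ Finset.univ.erase j, ((1 + sg (β i) * b i) / 2)) := by
        rw [← Finset.mul_prod_erase _ _ (Finset.mem_univ j)]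
        congr 1
        · exact PP_single g _ j (β j) a hj
        · rw [← Finset.prod_mul_distrib]
          refine Finset.prod_congr rfl (fun i hi' => ?_)
          have hij : i ≠ j := Finset.ne_of_mem_erase hi'
          exact PP_empty g _ i (β i) (b i) (hg i).mean (hi i hij)
      rw [hprod]
      have hpow : (2 : ℝ) ^ Fintype.card (Σ i, κ i) = 2 ^ Fintype.card (κ j)
          * ∏ i ∈ Finset.univ.erase j, (2 : ℝ) ^ Fintype.card (κ i) := by
        rw [Finset.mul_prod_erase _ (fun i => (2 : ℝ) ^ Fintype.card (κ i)) (Finset.mem_univ j),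
          hcardpow]
      rw [hpow]
      have hE : (∏ i ∈ Finset.univ.erase j, (2 : ℝ) ^ Fintype.card (κ i)) ≠ 0 :=
        Finset.prod_ne_zero_iff.mpr (fun i _ => two_pow_ne _)
      have h3 := two_pow_ne (Fintype.card (κ j))
      field_simp
    rw [Fintype.sum_sigma]
    refine Finset.sum_le_sum (fun j _ => ?_)
    simp_rw [hcoef]
    rw [← Finset.mul_sum]
    exact mul_le_mul_of_nonneg_left (hg j).wt (hpos j)

end comp

end Crest.Agent.S85
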