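import Crest.Agent.S85.Defs

set_option autoImplicit false

/-! Composition of balanced Boolean functions. -/

namespace Crest.Agent.S85

open Finset

/-- the character sum of a Boolean function -/
noncomputable def cf {ι : Type} [Fintype ι] [DecidableEq ι] (f : (ι → Bool) → Bool)
    (S : Finset ι) : ℝ := ∑ x, (sg (f x) * ∏ i ∈ S, sg (x i))

lemma sum_sg : ∑ b : Bool, sg b = 0 := by simp [sg]

/-- orthogonality: a nonempty character sums to zero -/
lemma sum_chi {ι : Type} [Fintype ι] [DecidableEq ι] (T : Finset ι) (hT : T ≠ ∅) :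
    ∑ x : ι → Bool, ∏ i ∈ T, sg (x i) = 0 := by
  have h1 : ∀ x : ι → Bool, ∏ i ∈ T, sg (x i) = ∏ i, (if i ∈ T then sg (x i) else 1) := by
    intro x
    rw [Finset.prod_ite_mem]
    simp
  simp_rw [h1]
  have h2 := Finset.prod_univ_sum (fun _ : ι => (Finset.univ : Finset Bool))
    (fun i b => if i ∈ T then sg b else 1)
  rw [Fintype.piFinset_univ] at h2
  rw [← h2]
  obtain ⟨i, hi⟩ := Finset.nonempty_iff_ne_empty.mpr hT
  refine Finset.prod_eq_zero (Finset.mem_univ i) ?_
  simp only [hi, if_true]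
  exact sum_sg

/-- Fourier inversion -/
lemma inversion {ι : Type} [Fintype ι] [DecidableEq ι] (f : (ι → Bool) → Bool) (b : ι → Bool) :
    (2 : ℝ) ^ Fintype.card ι * sg (f b) = ∑ S : Finset ι, cf f S * ∏ i ∈ S, sg (b i) := by
  have h1 : ∀ x : ι → Bool, ∑ S : Finset ι, (∏ i ∈ S, (sg (x i) * sg (b i)))
      = if x = b then (2 : ℝ) ^ Fintype.card ι else 0 := by
    intro x
    have h2 := Finset.prod_one_add (f := fun i => sg (x i) * sg (b i)) (Finset.univ : Finset ι)
    rw [Finset.powerset_univ] at h2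
    rw [← h2]
    split_ifs with hx
    · subst hx
      simp only [sg_sq]
      norm_num
    · obtain ⟨i, hi⟩ := Function.ne_iff.mp hx
      refine Finset.prod_eq_zero (Finset.mem_univ i) ?_
      revert hi
      cases x i <;> cases b i <;> simp [sg]
  have h3 : ∑ x, sg (f x) * (∑ S : Finset ι, (∏ i ∈ S, (sg (x i) * sg (b i))))
      = (2 : ℝ) ^ Fintype.card ι * sg (f b) := by
    simp_rw [h1]
    simp [mul_comm]
  rw [← h3]
  simp_rw [Finset.mul_sum]
  rw [Finset.sum_comm]
  refine Finset.sum_congr rfl (fun S _ => ?_)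
  rw [cf, Finset.sum_mul]
  refine Finset.sum_congr rfl (fun x _ => ?_)
  rw [Finset.prod_mul_distrib]
  ring

set_option linter.unusedSectionVars false

section comp

variable {ι : Type} [Fintype ι] [DecidableEq ι] {κ : ι → Type} [∀ i, Fintype (κ i)]
  [∀ i, DecidableEq (κ i)]

/-- the composed function -/
def cmp (f : (ι → Bool) → Bool) (g : ∀ i, (κ i → Bool) → Bool) (x : (Σ i, κ i) → Bool) : Bool :=
  f (fun i => g i (fun a => x ⟨i, a⟩))

/-- the inner factor -/
noncomputable def Q (g : ∀ i, (κ i → Bool) → Bool) (T : ∀ i, Finset (κ i)) (S : Finset ι)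
    (i : ι) : ℝ :=
  ∑ y : κ i → Bool, (if i ∈ S then sg (g i y) else 1) * ∏ a ∈ T i, sg (y a)

lemma main (f : (ι → Bool) → Bool) (g : ∀ i, (κ i → Bool) → Bool) (T : ∀ i, Finset (κ i)) :
    (2 : ℝ) ^ Fintype.card ι * cf (cmp f g) (Finset.univ.sigma T)
      = ∑ S : Finset ι, cf f S * ∏ i, Q g T S i := by
  have hchi : ∀ x : (Σ i, κ i) → Bool, ∏ i ∈ Finset.univ.sigma T, sg (x i)
      = ∏ i, ∏ a ∈ T i, sg (x ⟨i, a⟩) := by
    intro x
    rw [Finset.prod_sigma]
  rw [cf, Finset.mul_sum]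
  have h1 : ∀ x : (Σ i, κ i) → Bool,
      (2 : ℝ) ^ Fintype.card ι * (sg (cmp f g x) * ∏ i ∈ Finset.univ.sigma T, sg (x i))
      = ∑ S : Finset ι, cf f S * ∏ i, ((if i ∈ S then sg (g i (fun a => x ⟨i, a⟩)) else 1)
          * ∏ a ∈ T i, sg (x ⟨i, a⟩)) := by
    intro x
    rw [hchi, ← mul_assoc, cmp, inversion, Finset.sum_mul]
    refine Finset.sum_congr rfl (fun S _ => ?_)
    rw [Finset.prod_mul_distrib, mul_assoc]
    congr 2
    rw [Finset.prod_ite_mem]
    simp
  rw [Finset.sum_congr rfl (fun x _ => h1 x), Finset.sum_comm]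
  refine Finset.sum_congr rfl (fun S _ => ?_)
  rw [← Finset.mul_sum]
  congr 1
  have h2 := Finset.prod_univ_sum (fun i : ι => (Finset.univ : Finset (κ i → Bool)))
    (fun i y => (if i ∈ S then sg (g i y) else 1) * ∏ a ∈ T i, sg (y a))
  rw [Fintype.piFinset_univ] at h2
  unfold Q
  rw [h2]
  exact Fintype.sum_equiv (Equiv.piCurry (fun (i : ι) (_ : κ i) => Bool)) _ _ (fun x => rfl)

lemma Q_mem (g : ∀ i, (κ i → Bool) → Bool) (T : ∀ i, Finset (κ i)) (S : Finset ι)
    (i : ι) (hi : i ∈ S) : Q g T S i = cf (g i) (T i) := by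
  simp only [Q, hi, if_true, cf]

lemma Q_not_mem (g : ∀ i, (κ i → Bool) → Bool) (T : ∀ i, Finset (κ i)) (S : Finset ι)
    (i : ι) (hi : i ∉ S) (hT : T i ≠ ∅) : Q g T S i = 0 := by
  simp only [Q, hi, if_false, one_mul]
  exact sum_chi _ hT

lemma Q_not_mem_empty (g : ∀ i, (κ i → Bool) → Bool) (T : ∀ i, Finset (κ i)) (S : Finset ι)
    (i : ι) (hi : i ∉ S) (hT : T i = ∅) : Q g T S i = 2 ^ Fintype.card (κ i) := by
  simp [Q, hi, hT]

lemma two_pow_ne (n : ℕ) : (2 : ℝ) ^ n ≠ 0 := pow_ne_zero _ two_ne_zero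

/-- composition preserves goodness -/
theorem comp_good (f : (ι → Bool) → Bool) (hbal : ∑ x, sg (f x) = 0)
    (g : ∀ i, (κ i → Bool) → Bool) (d : ι → ℕ) (W : ι → ℝ)
    (hg : ∀ i, Good (g i) (d i) (W i)) (D : ℕ)
    (supp : ∀ S : Finset ι, D < ∑ i ∈ S, d i → cf f S = 0)
    (hpos : ∀ i, 0 ≤ cf f {i}) :
    Good (cmp f g) D (∑ i, cf f {i} / 2 ^ Fintype.card ι * W i) := by
  have hgb : ∀ i, cf (g i) ∅ = 0 := by
    intro i
    have := (hg i).bal
    simpa [cf] using this
  have hfb : cf f ∅ = 0 := by simpa [cf] using hbal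
  have hT : ∀ T : Finset (Σ i, κ i),
      T = Finset.univ.sigma (fun i => Finset.univ.filter (fun a => (⟨i, a⟩ : Σ i, κ i) ∈ T)) := by
    intro T
    ext ⟨i, a⟩
    simp
  refine ⟨?_, ?_, ?_⟩
  · have h := main f g (fun i => (∅ : Finset (κ i)))
    have h0 : ∑ S : Finset ι, cf f S * ∏ i, Q g (fun i => (∅ : Finset (κ i))) S i = 0 := by
      refine Finset.sum_eq_zero (fun S _ => ?_)
      rcases Finset.eq_empty_or_nonempty S with hS | ⟨i, hi⟩
      · subst hS
        rw [hfb, zero_mul]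
      · rw [Finset.prod_eq_zero (Finset.mem_univ i), mul_zero]
        rw [Q_mem _ _ _ _ hi, hgb]
    rw [h0] at h
    have h1 := (mul_eq_zero.mp h).resolve_left (two_pow_ne _)
    have he : (Finset.univ : Finset ι).sigma (fun i => (∅ : Finset (κ i))) = ∅ := by
      ext ⟨i, a⟩
      simp
    rw [he] at h1
    simpa [cf] using h1
  · intro T hTc
    have h := main f g (fun i => Finset.univ.filter (fun a => (⟨i, a⟩ : Σ i, κ i) ∈ T))
    rw [← hT T] at h
    have h0 : ∑ S : Finset ι, cf f S * ∏ i, Q g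
        (fun i => Finset.univ.filter (fun a => (⟨i, a⟩ : Σ i, κ i) ∈ T)) S i = 0 := by
      refine Finset.sum_eq_zero (fun S _ => ?_)
      by_cases hc : cf f S = 0
      · rw [hc, zero_mul]
      have hle : ∑ i ∈ S, d i ≤ D := by
        by_contra hlt
        exact hc (supp S (not_le.mp hlt))
      have hcard : T.card = ∑ i, (Finset.univ.filter
          (fun a => (⟨i, a⟩ : Σ i, κ i) ∈ T)).card := by
        conv_lhs => rw [hT T]
        rw [Finset.card_sigma]
      have hlt : ∑ i, (if i ∈ S then d i else 0) < ∑ i, (Finset.univ.filter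
          (fun a => (⟨i, a⟩ : Σ i, κ i) ∈ T)).card := by
        rw [← hcard]
        refine lt_of_le_of_lt ?_ hTc
        refine le_trans (le_of_eq ?_) hle
        simp
      obtain ⟨i, _, hi⟩ := Finset.exists_lt_of_sum_lt hlt
      rw [Finset.prod_eq_zero (Finset.mem_univ i), mul_zero]
      by_cases hiS : i ∈ S
      · rw [Q_mem _ _ _ _ hiS]
        rw [if_pos hiS] at hi
        exact (hg i).deg _ hi
      · rw [if_neg hiS] at hi
        refine Q_not_mem _ _ _ _ hiS ?_
        exact Finset.nonempty_iff_ne_empty.mp (Finset.card_pos.mp hi)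
    rw [h0] at h
    exact (mul_eq_zero.mp h).resolve_left (two_pow_ne _)
  · have hcoef : ∀ (j : ι) (a : κ j),
        (∑ x, sg (cmp f g x) * sg (x ⟨j, a⟩)) / 2 ^ Fintype.card (Σ i, κ i)
          = cf f {j} / 2 ^ Fintype.card ι
            * ((∑ y, sg (g j y) * sg (y a)) / 2 ^ Fintype.card (κ j)) := by
      intro j a
      have h := main f g (fun i => Finset.univ.filter
        (fun b => (⟨i, b⟩ : Σ i, κ i) ∈ ({⟨j, a⟩} : Finset (Σ i, κ i))))
      rw [← hT {⟨j, a⟩}] at h
      have hj : (Finset.univ.filter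
        (fun b => (⟨j, b⟩ : Σ i, κ i) ∈ ({⟨j, a⟩} : Finset (Σ i, κ i)))) = {a} := by
        ext b
        simp
      have hi : ∀ i, i ≠ j → (Finset.univ.filter
        (fun b => (⟨i, b⟩ : Σ i, κ i) ∈ ({⟨j, a⟩} : Finset (Σ i, κ i)))) = ∅ := by
        intro i hij
        ext b
        simp only [Finset.mem_filter, Finset.mem_univ, true_and, Finset.mem_singleton,
          Finset.notMem_empty, iff_false]
        intro hb
        exact hij (congrArg Sigma.fst hb)
      rw [Finset.sum_eq_single ({j} : Finset ι)] at h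
      · have hprod : ∏ i, Q g (fun i => Finset.univ.filter
            (fun b => (⟨i, b⟩ : Σ i, κ i) ∈ ({⟨j, a⟩} : Finset (Σ i, κ i)))) {j} i
            = (∑ y, sg (g j y) * sg (y a)) * ∏ i ∈ Finset.univ.erase j,
              (2 : ℝ) ^ Fintype.card (κ i) := by
          rw [← Finset.mul_prod_erase _ _ (Finset.mem_univ j)]
          congr 1
          · rw [Q_mem _ _ _ _ (Finset.mem_singleton_self j)]
            simp only [hj, cf, Finset.prod_singleton]
          · refine Finset.prod_congr rfl (fun i hi' => ?_)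
            have hij : i ≠ j := Finset.ne_of_mem_erase hi'
            exact Q_not_mem_empty _ _ _ _ (by simpa using hij) (hi i hij)
        rw [hprod] at h
        have hpow : (2 : ℝ) ^ Fintype.card (Σ i, κ i) = 2 ^ Fintype.card (κ j)
            * ∏ i ∈ Finset.univ.erase j, (2 : ℝ) ^ Fintype.card (κ i) := by
          rw [Finset.mul_prod_erase _ (fun i => (2 : ℝ) ^ Fintype.card (κ i)) (Finset.mem_univ j),
            Fintype.card_sigma, Finset.prod_pow_eq_pow_sum]
        have hcf : cf (cmp f g) {⟨j, a⟩} = ∑ x, sg (cmp f g x) * sg (x ⟨j, a⟩) := by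
          simp only [cf, Finset.prod_singleton]
        rw [hcf] at h
        rw [hpow]
        have hE : (∏ i ∈ Finset.univ.erase j, (2 : ℝ) ^ Fintype.card (κ i)) ≠ 0 :=
          Finset.prod_ne_zero_iff.mpr (fun i _ => two_pow_ne _)
        have h2 := two_pow_ne (Fintype.card ι)
        have h3 := two_pow_ne (Fintype.card (κ j))
        field_simp
        linarith
      · intro S _ hS
        by_cases hjS : j ∈ S
        · have : ∃ i ∈ S, i ≠ j := by
            by_contra hcon
            push Not at hcon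
            exact hS (Finset.eq_singleton_iff_unique_mem.mpr ⟨hjS, hcon⟩)
          obtain ⟨i, hiS, hij⟩ := this
          rw [Finset.prod_eq_zero (Finset.mem_univ i), mul_zero]
          rw [Q_mem _ _ _ _ hiS, hi i hij, hgb]
        · rw [Finset.prod_eq_zero (Finset.mem_univ j), mul_zero]
          refine Q_not_mem _ _ _ _ hjS ?_
          rw [hj]
          exact Finset.singleton_ne_empty a
      · intro hS
        exact absurd (Finset.mem_univ _) hS
    rw [Fintype.sum_sigma]
    refine Finset.sum_le_sum (fun j _ => ?_)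
    simp_rw [hcoef]
    rw [← Finset.mul_sum]
    exact mul_le_mul_of_nonneg_left (hg j).wt (div_nonneg (hpos j) (by positivity))

end comp

/-- packaged over `Fin` -/
theorem comp_fin {n0 : ℕ} (f : (Fin n0 → Bool) → Bool) (hbal : ∑ x, sg (f x) = 0)
    (n : Fin n0 → ℕ) (g : ∀ i, (Fin (n i) → Bool) → Bool) (d : Fin n0 → ℕ) (W : Fin n0 → ℝ)
    (hg : ∀ i, Good (g i) (d i) (W i)) (D : ℕ)
    (supp : ∀ S : Finset (Fin n0), D < ∑ i ∈ S, d i →
      ∑ x, (sg (f x) * ∏ i ∈ S, sg (x i)) = 0)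
    (hpos : ∀ i, 0 ≤ ∑ x, sg (f x) * sg (x i)) :
    ∃ (m : ℕ) (F : (Fin m → Bool) → Bool),
      Good F D (∑ i, (∑ x, sg (f x) * sg (x i)) / 2 ^ n0 * W i) := by
  have h := comp_good f hbal g d W hg D supp (by
    intro i
    simpa [cf] using hpos i)
  refine ⟨Fintype.card (Σ i, Fin (n i)), _, (h.mono le_rfl (le_of_eq ?_)).equiv
    (Fintype.equivFin (Σ i, Fin (n i)))⟩
  simp [cf]

end Crest.Agent.S85
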