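import Mathlib

set_option autoImplicit false

/-! Definitions for S0085: balanced Boolean functions of bounded degree with large sum of the
linear Fourier coefficients. -/

namespace Crest.Agent.S85

open Finset

/-- sign of a bit -/
def sg (b : Bool) : ℝ := if b then 1 else -1

lemma sg_sq (b : Bool) : sg b * sg b = 1 := by
  cases b <;> simp [sg]

/-- `f` is balanced, has degree at most `d`, and its linear coefficients sum to at least `W`. -/
structure Good {ι : Type} [Fintype ι] [DecidableEq ι] (f : (ι → Bool) → Bool) (d : ℕ) (W : ℝ) :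
    Prop where
  bal : ∑ x, sg (f x) = 0
  deg : ∀ S : Finset ι, d < S.card → ∑ x, (sg (f x) * ∏ i ∈ S, sg (x i)) = 0
  wt : W ≤ ∑ i, (∑ x, sg (f x) * sg (x i)) / 2 ^ Fintype.card ι

lemma Good.mono {ι : Type} [Fintype ι] [DecidableEq ι] {f : (ι → Bool) → Bool} {d d' : ℕ}
    {W W' : ℝ} (h : Good f d W) (hd : d ≤ d') (hW : W' ≤ W) : Good f d' W' :=
  ⟨h.bal, fun S hS => h.deg S (lt_of_le_of_lt hd hS), le_trans hW h.wt⟩

/-- transfer along an equivalence of the index types -/
lemma Good.equiv {ι κ : Type} [Fintype ι] [DecidableEq ι] [Fintype κ] [DecidableEq κ]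
    (e : ι ≃ κ) {f : (ι → Bool) → Bool} {d : ℕ} {W : ℝ} (h : Good f d W) :
    Good (fun y : κ → Bool => f (fun i => y (e i))) d W := by
  have key : ∀ F : (ι → Bool) → ℝ, ∑ y : κ → Bool, F (fun i => y (e i)) = ∑ x, F x := by
    intro F
    exact Fintype.sum_equiv (Equiv.arrowCongr e.symm (Equiv.refl Bool)) _ _ (fun y => rfl)
  refine ⟨?_, ?_, ?_⟩
  · rw [← h.bal, ← key]
  · intro S hS
    have h1 := h.deg (S.map e.symm.toEmbedding) (by simpa using hS)
    rw [← key] at h1
    rw [← h1]
    refine Finset.sum_congr rfl (fun y _ => ?_)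
    congr 1
    rw [Finset.prod_map]
    simp
  · have hc : Fintype.card ι = Fintype.card κ := Fintype.card_congr e
    refine le_trans h.wt (le_of_eq ?_)
    rw [← hc]
    refine Fintype.sum_equiv e _ _ (fun i => ?_)
    congr 1
    rw [← key]

end Crest.Agent.S85
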