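import Mathlib

set_option autoImplicit false

/-!
# S0085: Fourier basics and block composition
-/
namespace Crest.Agent.S85

/-- sign of a Boolean -/
noncomputable def sg (b : Bool) : ℝ := if b then 1 else -1

@[simp] theorem sg_true : sg true = 1 := by simp [sg]
@[simp] theorem sg_false : sg false = -1 := by simp [sg]
theorem sg_sq (b : Bool) : sg b * sg b = 1 := by cases b <;> simp
theorem sg_not (b : Bool) : sg (!b) = - sg b := by cases b <;> simp

/-- unnormalised Fourier coefficient -/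
noncomputable def num {ι : Type*} [Fintype ι] [DecidableEq ι] (f : (ι → Bool) → Bool)
    (S : Finset ι) : ℝ := ∑ x : ι → Bool, sg (f x) * ∏ i ∈ S, sg (x i)

theorem sum_prod_pi {ι : Type*} [Fintype ι] [DecidableEq ι] {α : ι → Type*}
    [∀ i, Fintype (α i)] [∀ i, DecidableEq (α i)] (φ : ∀ i, α i → ℝ) :
    ∑ u : (∀ i, α i), ∏ i, φ i (u i) = ∏ i, ∑ v, φ i v := by
  rw [Finset.prod_univ_sum, Fintype.piFinset_univ]

theorem sum_chi {ι : Type*} [Fintype ι] [DecidableEq ι] (A : Finset ι) :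
    ∑ v : ι → Bool, ∏ j ∈ A, sg (v j) = if A = ∅ then (2 : ℝ) ^ Fintype.card ι else 0 := by
  have h1 : ∀ v : ι → Bool, ∏ j ∈ A, sg (v j) = ∏ j, (if j ∈ A then sg (v j) else 1) := by
    intro v
    rw [Finset.prod_ite_mem, Finset.univ_inter]
  simp_rw [h1]
  rw [sum_prod_pi (fun j b => if j ∈ A then sg b else 1)]
  have h2 : ∀ j, (∑ v : Bool, if j ∈ A then sg v else 1) = if j ∈ A then (0 : ℝ) else 2 := by
    intro j
    by_cases hj : j ∈ A <;> simp [hj]
  simp_rw [h2]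
  by_cases hA : A = ∅
  · subst hA; simp
  · rw [if_neg hA]
    obtain ⟨a, ha⟩ := Finset.nonempty_of_ne_empty hA
    exact Finset.prod_eq_zero (Finset.mem_univ a) (by simp [ha])

/-- Fourier inversion -/
theorem inversion {n : ℕ} (f : (Fin n → Bool) → Bool) (y : Fin n → Bool) :
    sg (f y) = ∑ S : Finset (Fin n), (num f S / 2 ^ n) * ∏ i ∈ S, sg (y i) := by
  have key : ∀ x : Fin n → Bool, (∑ S : Finset (Fin n), (∏ i ∈ S, sg (x i)) * ∏ i ∈ S, sg (y i))
      = if x = y then (2 : ℝ) ^ n else 0 := by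
    intro x
    have h1 : ∀ S : Finset (Fin n), (∏ i ∈ S, sg (x i)) * ∏ i ∈ S, sg (y i)
        = ∏ i ∈ S, (sg (x i) * sg (y i)) := fun S => Finset.prod_mul_distrib.symm
    simp_rw [h1]
    have h2 : (∑ S : Finset (Fin n), ∏ i ∈ S, (sg (x i) * sg (y i)))
        = ∏ i, (1 + sg (x i) * sg (y i)) := by
      rw [Finset.prod_one_add]
      simp
    rw [h2]
    split_ifs with h
    · subst h
      simp_rw [sg_sq]
      norm_num
    · obtain ⟨i, hi⟩ := Function.ne_iff.1 h
      refine Finset.prod_eq_zero (Finset.mem_univ i) ?_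
      cases hx : x i <;> cases hy : y i <;> simp_all
  unfold num
  have : ∑ S : Finset (Fin n), ((∑ x : Fin n → Bool, sg (f x) * ∏ i ∈ S, sg (x i)) / 2 ^ n) *
      ∏ i ∈ S, sg (y i) = (∑ x : Fin n → Bool, sg (f x) *
        ∑ S : Finset (Fin n), (∏ i ∈ S, sg (x i)) * ∏ i ∈ S, sg (y i)) / 2 ^ n := by
    simp_rw [Finset.mul_sum, Finset.sum_div, Finset.sum_mul]
    rw [Finset.sum_comm]
    refine Finset.sum_congr rfl fun x _ => Finset.sum_congr rfl fun S _ => ?_
    ring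
  rw [this]
  simp_rw [key]
  simp

variable {n : ℕ} {m : Fin n → ℕ}

/-- block composition on the sigma type -/
def comp (f : (Fin n → Bool) → Bool) (g : ∀ i, (Fin (m i) → Bool) → Bool)
    (x : (Σ i, Fin (m i)) → Bool) : Bool := f (fun i => g i (fun j => x ⟨i, j⟩))

/-- the `i`-th section -/
def sec (T : Finset (Σ i : Fin n, Fin (m i))) (i : Fin n) : Finset (Fin (m i)) :=
  Finset.univ.filter (fun j => (⟨i, j⟩ : Σ i : Fin n, Fin (m i)) ∈ T)

theorem sigma_sec (T : Finset (Σ i : Fin n, Fin (m i))) :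
    (Finset.univ.sigma (sec T)) = T := by
  ext ⟨i, j⟩
  simp [sec]

theorem comp_num (f : (Fin n → Bool) → Bool) (g : ∀ i, (Fin (m i) → Bool) → Bool)
    (T : Finset (Σ i : Fin n, Fin (m i))) :
    num (comp f g) T = ∑ S : Finset (Fin n), (num f S / 2 ^ n) *
      ∏ i, (if i ∈ S then num (g i) (sec T i) else (if sec T i = ∅ then (2 : ℝ) ^ (m i) else 0)) := by
  have h1 : ∀ x : (Σ i, Fin (m i)) → Bool, ∏ p ∈ T, sg (x p)
      = ∏ i, ∏ j ∈ sec T i, sg (x ⟨i, j⟩) := by
    intro x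
    conv_lhs => rw [← sigma_sec T]
    rw [Finset.prod_sigma]
  have h2 : num (comp f g) T = ∑ S : Finset (Fin n), (num f S / 2 ^ n) *
      ∑ x : (Σ i, Fin (m i)) → Bool, ∏ i, ((if i ∈ S then sg (g i (fun j => x ⟨i, j⟩)) else 1) *
        ∏ j ∈ sec T i, sg (x ⟨i, j⟩)) := by
    unfold num comp
    simp_rw [h1]
    have : ∀ x : (Σ i, Fin (m i)) → Bool,
        sg (f (fun i => g i (fun j => x ⟨i, j⟩))) * ∏ i, ∏ j ∈ sec T i, sg (x ⟨i, j⟩)
        = ∑ S : Finset (Fin n), (num f S / 2 ^ n) *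
          ∏ i, ((if i ∈ S then sg (g i (fun j => x ⟨i, j⟩)) else 1) *
        ∏ j ∈ sec T i, sg (x ⟨i, j⟩)) := by
      intro x
      rw [inversion f, Finset.sum_mul]
      refine Finset.sum_congr rfl fun S _ => ?_
      rw [Finset.prod_mul_distrib, Finset.prod_ite_mem, Finset.univ_inter]
      ring
    simp_rw [this]
    rw [Finset.sum_comm]
    refine Finset.sum_congr rfl fun S _ => ?_
    rw [Finset.mul_sum]
    rfl
  rw [h2]
  refine Finset.sum_congr rfl fun S _ => ?_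
  congr 1
  have h3 : (∑ x : (Σ i, Fin (m i)) → Bool, ∏ i, ((if i ∈ S then sg (g i (fun j => x ⟨i, j⟩)) else 1) *
        ∏ j ∈ sec T i, sg (x ⟨i, j⟩)))
      = ∑ u : (∀ i, Fin (m i) → Bool), ∏ i, ((if i ∈ S then sg (g i (u i)) else 1) *
        ∏ j ∈ sec T i, sg (u i j)) := by
    refine Fintype.sum_equiv (Equiv.piCurry (fun _ _ => Bool)) _ _ (fun x => ?_)
    rfl
  rw [h3, sum_prod_pi (fun i v => ((if i ∈ S then sg (g i v) else 1) *
        ∏ j ∈ sec T i, sg (v j)))]
  refine Finset.prod_congr rfl fun i _ => ?_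
  by_cases hi : i ∈ S
  · simp [hi, num]
  · simp only [hi, if_false, one_mul]
    rw [sum_chi]
    simp

end Crest.Agent.S85
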