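import Crest.Agent.S85.Reach

set_option autoImplicit false

/-! Numeric front end for gates with rational biases and weights. -/

namespace Crest.Agent.S85

open Finset

/-- perfect binary trees -/
inductive BT : ℕ → Type
  | leaf (a : ℤ) : BT 0
  | node {n : ℕ} (l r : BT n) : BT (n + 1)

def BT.val : {n : ℕ} → BT n → (Fin n → Bool) → ℤ
  | _, .leaf a, _ => a
  | _, .node l r, x => if x 0 then r.val (fun i => x i.succ) else l.val (fun i => x i.succ)

def BT.add : {n : ℕ} → BT n → BT n → BT n
  | _, .leaf a, .leaf b => .leaf (a + b)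
  | _, .node l r, .node l' r' => .node (l.add l') (r.add r')

def BT.sub : {n : ℕ} → BT n → BT n → BT n
  | _, .leaf a, .leaf b => .leaf (a - b)
  | _, .node l r, .node l' r' => .node (l.sub l') (r.sub r')

/-- table of the mask `B` -/
def mkT (B : ℕ) : (n : ℕ) → ℕ → ℕ → BT n
  | 0, off, _ => .leaf (if B.testBit off then 1 else -1)
  | n + 1, off, st => .node (mkT B n off (2 * st)) (mkT B n (off + st) (2 * st))

/-- all coefficients of weight `> 1` vanish -/
def BT.chk : {n : ℕ} → BT n → (Fin n → ℚ) → ℚ → Bool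
  | _, .leaf a, _, acc => decide (a = 0) || decide (acc ≤ 1)
  | _, .node l r, w, acc =>
      (r.add l).chk (fun i => w i.succ) acc && (r.sub l).chk (fun i => w i.succ) (acc + w 0)

def BT.ex : {n : ℕ} → BT n → (Fin n → ℚ) → ℚ
  | _, .leaf a, _ => a
  | _, .node l r, b => (1 - b 0) / 2 * l.ex (fun i => b i.succ)
      + (1 + b 0) / 2 * r.ex (fun i => b i.succ)

def BT.de : {n : ℕ} → BT n → (Fin n → ℚ) → Fin n → ℚ
  | _, .leaf _, _, _ => 0
  | _, .node l r, b, j =>
      Fin.cases ((r.ex (fun i => b i.succ) - l.ex (fun i => b i.succ)) / 2)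
        (fun i => (1 - b 0) / 2 * l.de (fun i => b i.succ) i
          + (1 + b 0) / 2 * r.de (fun i => b i.succ) i) j

/-- the Boolean function of a tree -/
def BT.fn {n : ℕ} (t : BT n) (x : Fin n → Bool) : Bool := decide (0 < t.val x)

lemma add_val : ∀ {n : ℕ} (s t : BT n) (x : Fin n → Bool), (s.add t).val x = s.val x + t.val x
  | _, .leaf a, .leaf b, _ => rfl
  | _, .node l r, .node l' r', x => by
    simp only [BT.add, BT.val]
    split_ifs
    · exact add_val r r' _
    · exact add_val l l' _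

lemma sub_val : ∀ {n : ℕ} (s t : BT n) (x : Fin n → Bool), (s.sub t).val x = s.val x - t.val x
  | _, .leaf a, .leaf b, _ => rfl
  | _, .node l r, .node l' r', x => by
    simp only [BT.sub, BT.val]
    split_ifs
    · exact sub_val r r' _
    · exact sub_val l l' _

lemma mkT_val (B : ℕ) : ∀ (n off st : ℕ) (x : Fin n → Bool),
    (mkT B n off st).val x = 1 ∨ (mkT B n off st).val x = -1
  | 0, off, st, x => by
    simp only [mkT, BT.val]
    split_ifs <;> simp
  | n + 1, off, st, x => by
    simp only [mkT, BT.val]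
    split_ifs
    · exact mkT_val B n _ _ _
    · exact mkT_val B n _ _ _

lemma sum_cons {n : ℕ} (F : (Fin (n + 1) → Bool) → ℝ) :
    ∑ x, F x = ∑ y : Fin n → Bool, F (Fin.cons false y) + ∑ y : Fin n → Bool, F (Fin.cons true y) := by
  rw [← Fintype.sum_equiv (Fin.consEquiv (fun _ : Fin (n + 1) => Bool)) (fun p => F (Fin.cons p.1 p.2))
    F (fun p => rfl), Fintype.sum_prod_type]
  simp only [Fintype.sum_bool]
  ring

/-- real-valued versions for a general function -/
noncomputable def extR {n : ℕ} (F : (Fin n → Bool) → ℝ) (b : Fin n → ℝ) : ℝ :=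
  ∑ β : Fin n → Bool, F β * ∏ i, ((1 + sg (β i) * b i) / 2)

noncomputable def derR {n : ℕ} (F : (Fin n → Bool) → ℝ) (b : Fin n → ℝ) (j : Fin n) : ℝ :=
  ∑ β : Fin n → Bool, F β * ((sg (β j) / 2) * ∏ i ∈ Finset.univ.erase j,
    ((1 + sg (β i) * b i) / 2))

noncomputable def cfR {n : ℕ} (F : (Fin n → Bool) → ℝ) (S : Finset (Fin n)) : ℝ :=
  ∑ x, F x * ∏ i ∈ S, sg (x i)

lemma extR_succ {n : ℕ} (F : (Fin (n + 1) → Bool) → ℝ) (b : Fin (n + 1) → ℝ) :
    extR F b = (1 - b 0) / 2 * extR (fun y => F (Fin.cons false y)) (fun i => b i.succ)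
      + (1 + b 0) / 2 * extR (fun y => F (Fin.cons true y)) (fun i => b i.succ) := by
  simp only [extR, sum_cons, Fin.prod_univ_succ, Fin.cons_zero, Fin.cons_succ, Finset.mul_sum]
  congr 1
  · refine Finset.sum_congr rfl (fun y _ => ?_)
    simp only [sg]
    simp
    ring
  · refine Finset.sum_congr rfl (fun y _ => ?_)
    simp only [sg]
    simp
    ring

lemma ex_eq : ∀ {n : ℕ} (t : BT n) (b : Fin n → ℚ),
    ((t.ex b : ℚ) : ℝ) = extR (fun x => (t.val x : ℝ)) (fun i => (b i : ℝ))
  | _, .leaf a, b => by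
    simp [BT.ex, extR, BT.val]
  | _, .node l r, b => by
    rw [extR_succ]
    simp only [BT.ex, BT.val, Fin.cons_zero, Fin.cons_succ]
    push_cast
    rw [ex_eq l, ex_eq r]

lemma derR_zero {n : ℕ} (F : (Fin (n + 1) → Bool) → ℝ) (b : Fin (n + 1) → ℝ) :
    derR F b 0 = (extR (fun y => F (Fin.cons true y)) (fun i => b i.succ)
      - extR (fun y => F (Fin.cons false y)) (fun i => b i.succ)) / 2 := by
  have hE : ∀ G : Fin (n + 1) → ℝ, ∏ i ∈ Finset.univ.erase 0, G i = ∏ i : Fin n, G i.succ := by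
    intro G
    have : (Finset.univ : Finset (Fin (n + 1))).erase 0 = Finset.univ.map (Fin.succEmb n) := by
      ext i
      refine Fin.cases ?_ (fun j => ?_) i
      · simp
      · simp
    rw [this, Finset.prod_map]
    rfl
  simp only [derR, extR, sum_cons, hE, Fin.cons_zero, Fin.cons_succ]
  rw [sub_div, Finset.sum_div, Finset.sum_div, ← Finset.sum_sub_distrib, ← Finset.sum_add_distrib]
  refine Finset.sum_congr rfl (fun y _ => ?_)
  simp only [sg]
  simp
  ring

lemma derR_succ {n : ℕ} (F : (Fin (n + 1) → Bool) → ℝ) (b : Fin (n + 1) → ℝ) (j : Fin n) :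
    derR F b j.succ = (1 - b 0) / 2 * derR (fun y => F (Fin.cons false y)) (fun i => b i.succ) j
      + (1 + b 0) / 2 * derR (fun y => F (Fin.cons true y)) (fun i => b i.succ) j := by
  have hE : ∀ G : Fin (n + 1) → ℝ, ∏ i ∈ Finset.univ.erase j.succ, G i
      = G 0 * ∏ i ∈ Finset.univ.erase j, G i.succ := by
    intro G
    have : (Finset.univ : Finset (Fin (n + 1))).erase j.succ
        = insert 0 ((Finset.univ.erase j).map (Fin.succEmb n)) := by
      ext i
      refine Fin.cases ?_ (fun k => ?_) i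
      · simp [(Fin.succ_ne_zero j).symm]
      · simp [Fin.succ_ne_zero]
    rw [this, Finset.prod_insert (by simp [Fin.succ_ne_zero]), Finset.prod_map]
    rfl
  simp only [derR, sum_cons, hE, Fin.cons_zero, Fin.cons_succ, Finset.mul_sum]
  congr 1
  · refine Finset.sum_congr rfl (fun y _ => ?_)
    simp only [sg]
    simp
    ring
  · refine Finset.sum_congr rfl (fun y _ => ?_)
    simp only [sg]
    simp
    ring

lemma de_eq : ∀ {n : ℕ} (t : BT n) (b : Fin n → ℚ) (j : Fin n),
    ((t.de b j : ℚ) : ℝ) = derR (fun x => (t.val x : ℝ)) (fun i => (b i : ℝ)) j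
  | _, .leaf a, b, j => j.elim0
  | _, .node l r, b, j => by
    refine Fin.cases ?_ (fun k => ?_) j
    · rw [derR_zero]
      simp only [BT.de, BT.val, Fin.cons_zero, Fin.cons_succ, Fin.cases_zero]
      push_cast
      rw [ex_eq l, ex_eq r]
    · rw [derR_succ]
      simp only [BT.de, BT.val, Fin.cons_zero, Fin.cons_succ, Fin.cases_succ]
      push_cast
      rw [de_eq l, de_eq r]

lemma cfR_map {n : ℕ} (F : (Fin (n + 1) → Bool) → ℝ) (S : Finset (Fin n)) :
    cfR F (S.map (Fin.succEmb n)) = cfR (fun y => F (Fin.cons true y) + F (Fin.cons false y)) S := by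
  simp only [cfR, sum_cons, Finset.prod_map, Fin.coe_succEmb, Fin.cons_succ]
  rw [← Finset.sum_add_distrib]
  refine Finset.sum_congr rfl (fun y _ => ?_)
  ring

lemma cfR_insert {n : ℕ} (F : (Fin (n + 1) → Bool) → ℝ) (S : Finset (Fin n)) :
    cfR F (insert 0 (S.map (Fin.succEmb n)))
      = cfR (fun y => F (Fin.cons true y) - F (Fin.cons false y)) S := by
  have h0 : (0 : Fin (n + 1)) ∉ S.map (Fin.succEmb n) := by simp [Fin.succ_ne_zero]
  simp only [cfR, sum_cons, Finset.prod_insert h0, Finset.prod_map, Fin.coe_succEmb,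
    Fin.cons_succ, Fin.cons_zero]
  rw [← Finset.sum_add_distrib]
  refine Finset.sum_congr rfl (fun y _ => ?_)
  simp only [sg]
  simp
  ring

lemma fin_split {n : ℕ} (S : Finset (Fin (n + 1))) :
    ∃ S' : Finset (Fin n), S = S'.map (Fin.succEmb n) ∨ S = insert 0 (S'.map (Fin.succEmb n)) := by
  refine ⟨Finset.univ.filter (fun i => i.succ ∈ S), ?_⟩
  by_cases h : (0 : Fin (n + 1)) ∈ S
  · right
    ext i
    refine Fin.cases ?_ (fun j => ?_) i
    · simp [h]
    · simp [Fin.succ_ne_zero]
  · left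
    ext i
    refine Fin.cases ?_ (fun j => ?_) i
    · simp [h, Fin.succ_ne_zero]
    · simp

lemma chk_sound : ∀ {n : ℕ} (t : BT n) (w : Fin n → ℚ) (acc : ℚ), t.chk w acc = true →
    ∀ S : Finset (Fin n), 1 < acc + ∑ i ∈ S, w i → cfR (fun x => (t.val x : ℝ)) S = 0
  | _, .leaf a, w, acc, h, S, hS => by
    have hS0 : S = ∅ := by
      ext i
      exact i.elim0
    subst hS0
    simp only [Finset.sum_empty, add_zero] at hS
    simp only [BT.chk, Bool.or_eq_true, decide_eq_true_eq] at h
    rcases h with h | h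
    · simp [cfR, BT.val, h]
    · linarith
  | _, .node l r, w, acc, h, S, hS => by
    simp only [BT.chk, Bool.and_eq_true] at h
    obtain ⟨S', hS' | hS'⟩ := fin_split S
    · subst hS'
      rw [cfR_map]
      rw [Finset.sum_map] at hS
      have := chk_sound (r.add l) (fun i => w i.succ) acc h.1 S' hS
      simp only [add_val] at this
      simpa [BT.val] using this
    · subst hS'
      rw [cfR_insert]
      have h0 : (0 : Fin (_ + 1)) ∉ S'.map (Fin.succEmb _) := by simp [Fin.succ_ne_zero]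
      rw [Finset.sum_insert h0, Finset.sum_map, ← add_assoc] at hS
      have := chk_sound (r.sub l) (fun i => w i.succ) (acc + w 0) h.2 S' hS
      simp only [sub_val] at this
      simpa [BT.val] using this

lemma sg_fn {n : ℕ} (t : BT n) (ht : ∀ x, t.val x = 1 ∨ t.val x = -1) (x : Fin n → Bool) :
    sg (t.fn x) = (t.val x : ℝ) := by
  rcases ht x with h | h <;> simp [BT.fn, sg, h]

/-- **numeric gate**: mask `B` (bit `Σ x_i 2^i` of `B` is the value at `x`, variable `0` least
significant), rational biases and weights -/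
theorem Reach.gateQ (n B : ℕ) (b w d : Fin n → ℚ) (e : ℚ) (m : Fin n → ℝ)
    (hchk : (mkT B n 0 1).chk w 0 = true)
    (he : (mkT B n 0 1).ex b = e)
    (hd : ∀ j, (mkT B n 0 1).de b j = d j)
    (hw : ∀ i, 0 ≤ w i) (hd0 : ∀ i, 0 ≤ d i) (hm : ∀ i, 0 ≤ m i)
    (h : ∀ i, Reach (b i) (m i)) :
    Reach e (∑ i, (d i : ℝ) * (m i * Real.sqrt (w i))) := by
  set t := mkT B n 0 1 with ht
  have hv : ∀ x, t.val x = 1 ∨ t.val x = -1 := mkT_val B n 0 1
  have hext : ext t.fn (fun i => (b i : ℝ)) = (e : ℝ) := by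
    rw [← he, ex_eq]
    simp only [ext, extR, sg_fn t hv]
  have hder : ∀ j, der t.fn (fun i => (b i : ℝ)) j = (d j : ℝ) := by
    intro j
    rw [← hd, de_eq]
    simp only [der, derR, sg_fn t hv]
  have key := Reach.gate t.fn (fun i => (b i : ℝ)) m (fun i => (w i : ℝ))
    (fun i => by exact_mod_cast hw i) hm
    (by
      intro S hS
      have h1 : (1 : ℚ) < 0 + ∑ i ∈ S, w i := by
        rw [zero_add]
        exact_mod_cast hS
      have := chk_sound t w 0 hchk S h1
      simpa only [cf, cfR, sg_fn t hv] using this)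
    (fun i => by
      rw [hder]
      exact_mod_cast hd0 i)
    h
  rw [hext] at key
  simpa only [hder] using key

/-- smoke test: majority of three balanced inputs -/
example (m0 : ℝ) (hm0 : 0 < m0) (h : Reach 0 m0) :
    Reach 0 (∑ i : Fin 3, ((![1/2, 1/2, 1/2] : Fin 3 → ℚ) i : ℝ) *
      (m0 * Real.sqrt ((![1/3, 1/3, 1/3] : Fin 3 → ℚ) i))) := by
  have key := Reach.gateQ 3 232 ![0, 0, 0] ![1/3, 1/3, 1/3] ![1/2, 1/2, 1/2] 0 (fun _ => m0)
    (by decide +kernel) (by decide +kernel) (by decide +kernel) (by decide +kernel)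
    (by decide +kernel) (fun _ => hm0.le) (by
      intro i
      fin_cases i <;> simpa using h)
  simpa using key

end Crest.Agent.S85
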