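import Crest.Agent.S85.Four

set_option autoImplicit false

/-!
# S0085: good functions, composition step
-/
namespace Crest.Agent.S85

/-- total singleton weight -/
noncomputable def W1 {n : ℕ} (f : (Fin n → Bool) → Bool) : ℝ := (∑ i, num f {i}) / 2 ^ n

/-- a balanced function of degree `≤ N` with `W ≥ r √N` -/
def Good (N : ℕ) (r : ℝ) : Prop :=
  ∃ (n : ℕ) (g : (Fin n → Bool) → Bool), num g ∅ = 0 ∧
    (∀ S : Finset (Fin n), N < S.card → num g S = 0) ∧ r * Real.sqrt N ≤ W1 g

theorem num_reindex {ι κ : Type*} [Fintype ι] [DecidableEq ι] [Fintype κ] [DecidableEq κ]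
    (e : ι ≃ κ) (f : (ι → Bool) → Bool) (S : Finset κ) :
    num (fun z : κ → Bool => f (fun i => z (e i))) S = num f (S.map e.symm.toEmbedding) := by
  unfold num
  refine Fintype.sum_equiv (Equiv.arrowCongr e.symm (Equiv.refl Bool)) _ _ (fun z => ?_)
  rw [Finset.prod_map]
  congr 1
  refine Finset.prod_congr rfl fun i _ => ?_
  simp [Equiv.arrowCongr]

variable {n : ℕ} {m : Fin n → ℕ}

theorem card_sec (T : Finset (Σ i : Fin n, Fin (m i))) : T.card = ∑ i, (sec T i).card := by
  conv_lhs => rw [← sigma_sec T]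
  rw [Finset.card_sigma]

theorem comp_deg (f : (Fin n → Bool) → Bool) (g : ∀ i, (Fin (m i) → Bool) → Bool)
    (w : Fin n → ℕ) (D M : ℕ)
    (hf : ∀ S : Finset (Fin n), D < ∑ i ∈ S, w i → num f S = 0)
    (hg : ∀ i, ∀ S : Finset (Fin (m i)), w i * M < S.card → num (g i) S = 0)
    (T : Finset (Σ i, Fin (m i))) (hT : D * M < T.card) : num (comp f g) T = 0 := by
  rw [comp_num]
  refine Finset.sum_eq_zero fun S _ => ?_
  by_cases h0 : num f S = 0
  · rw [h0]; simp
  have hS : ∑ i ∈ S, w i ≤ D := by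
    by_contra h
    exact h0 (hf S (not_le.1 h))
  by_cases h1 : ∃ i, i ∉ S ∧ sec T i ≠ ∅
  · obtain ⟨i, hi, hi'⟩ := h1
    rw [Finset.prod_eq_zero (Finset.mem_univ i) (by simp [hi, hi']), mul_zero]
  push Not at h1
  have h2 : ∃ i ∈ S, w i * M < (sec T i).card := by
    by_contra h
    push Not at h
    have h3 : T.card ≤ D * M := by
      rw [card_sec T]
      calc ∑ i, (sec T i).card = ∑ i ∈ S, (sec T i).card := by
            symm
            refine Finset.sum_subset (Finset.subset_univ S) (fun i _ hi => ?_)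
            rw [h1 i hi]; rfl
        _ ≤ ∑ i ∈ S, w i * M := Finset.sum_le_sum h
        _ = (∑ i ∈ S, w i) * M := by rw [Finset.sum_mul]
        _ ≤ D * M := Nat.mul_le_mul_right M hS
    omega
  obtain ⟨i, hi, hi'⟩ := h2
  rw [Finset.prod_eq_zero (Finset.mem_univ i) (by simp [hi, hg i _ hi']), mul_zero]

theorem comp_empty (f : (Fin n → Bool) → Bool) (g : ∀ i, (Fin (m i) → Bool) → Bool)
    (hf : num f ∅ = 0) (hg : ∀ i, num (g i) ∅ = 0) : num (comp f g) ∅ = 0 := by
  rw [comp_num]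
  refine Finset.sum_eq_zero fun S _ => ?_
  rcases Finset.eq_empty_or_nonempty S with h | ⟨i, hi⟩
  · rw [h, hf]; simp
  · have : sec (∅ : Finset (Σ i : Fin n, Fin (m i))) i = ∅ := by simp [sec]
    rw [Finset.prod_eq_zero (Finset.mem_univ i) (by rw [if_pos hi, this, hg i]), mul_zero]

theorem sec_single (a : Fin n) (b : Fin (m a)) (i : Fin n) :
    sec ({⟨a, b⟩} : Finset (Σ i : Fin n, Fin (m i))) i = ∅ ∨ i = a := by
  by_cases h : i = a
  · exact Or.inr h
  · left
    ext j
    simp [sec, h]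

theorem sec_single_self (a : Fin n) (b : Fin (m a)) :
    sec ({⟨a, b⟩} : Finset (Σ i : Fin n, Fin (m i))) a = {b} := by
  ext j
  simp [sec]

theorem comp_single (f : (Fin n → Bool) → Bool) (g : ∀ i, (Fin (m i) → Bool) → Bool)
    (hg : ∀ i, num (g i) ∅ = 0) (a : Fin n) (b : Fin (m a)) :
    num (comp f g) {⟨a, b⟩} / 2 ^ (∑ i, m i) = (num f {a} / 2 ^ n) * (num (g a) {b} / 2 ^ (m a)) := by
  rw [comp_num, Finset.sum_eq_single {a}]
  · have h1 : (∏ i, (if i ∈ ({a} : Finset (Fin n)) then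
        num (g i) (sec ({⟨a, b⟩} : Finset (Σ i : Fin n, Fin (m i))) i)
        else (if sec ({⟨a, b⟩} : Finset (Σ i : Fin n, Fin (m i))) i = ∅ then (2 : ℝ) ^ (m i) else 0)))
        = num (g a) {b} / 2 ^ (m a) * 2 ^ (∑ i, m i) := by
      rw [← Finset.prod_pow_eq_pow_sum, ← Finset.mul_prod_erase _ _ (Finset.mem_univ a),
        ← Finset.mul_prod_erase Finset.univ (fun i => (2 : ℝ) ^ (m i)) (Finset.mem_univ a)]
      rw [if_pos (Finset.mem_singleton_self a), sec_single_self]
      have : ∀ i ∈ Finset.univ.erase a, (if i ∈ ({a} : Finset (Fin n)) then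
        num (g i) (sec ({⟨a, b⟩} : Finset (Σ i : Fin n, Fin (m i))) i)
        else (if sec ({⟨a, b⟩} : Finset (Σ i : Fin n, Fin (m i))) i = ∅ then (2 : ℝ) ^ (m i) else 0))
          = 2 ^ (m i) := by
        intro i hi
        have hia : i ≠ a := Finset.ne_of_mem_erase hi
        have := (sec_single a b i).resolve_right hia
        simp [hia, this]
      rw [Finset.prod_congr rfl this]
      field_simp
    rw [h1]
    field_simp
  · intro S _ hS
    by_cases ha : a ∈ S
    · have : ∃ i ∈ S, i ≠ a := by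
        by_contra h
        push Not at h
        exact hS (Finset.eq_singleton_iff_unique_mem.2 ⟨ha, h⟩)
      obtain ⟨i, hi, hia⟩ := this
      have h2 := (sec_single a b i).resolve_right hia
      rw [Finset.prod_eq_zero (Finset.mem_univ i) (by rw [if_pos hi, h2, hg i]), mul_zero]
    · rw [Finset.prod_eq_zero (Finset.mem_univ a) (by
        rw [if_neg ha, sec_single_self]; simp), mul_zero]
  · intro h; exact absurd (Finset.mem_univ _) h

/-- **composition step** -/
theorem step (f : (Fin n → Bool) → Bool) (w : Fin n → ℕ) (D : ℕ) (ρ : ℝ)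
    (hf0 : num f ∅ = 0)
    (hf : ∀ S : Finset (Fin n), D < ∑ i ∈ S, w i → num f S = 0)
    (hpos : ∀ i, 0 ≤ num f {i})
    (hρ : ρ * Real.sqrt D ≤ ∑ i, num f {i} / 2 ^ n * Real.sqrt (w i))
    (M : ℕ) (r : ℝ) (hr : 0 ≤ r) (hg : ∀ i, Good (w i * M) r) : Good (D * M) (r * ρ) := by
  choose m g hg0 hgd hgW using hg
  refine ⟨∑ i, m i, fun z => comp f g (fun p => z (finSigmaFinEquiv p)), ?_, ?_, ?_⟩
  · rw [num_reindex (finSigmaFinEquiv) (comp f g)]
    simp only [Finset.map_empty]
    exact comp_empty f g hf0 hg0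
  · intro S hS
    rw [num_reindex (finSigmaFinEquiv) (comp f g)]
    exact comp_deg f g w D M hf hgd _ (by rw [Finset.card_map]; exact hS)
  · unfold W1
    have h1 : (∑ k : Fin (∑ i, m i), num (fun z => comp f g (fun p => z (finSigmaFinEquiv p))) {k})
        = ∑ p : (Σ i, Fin (m i)), num (comp f g) {p} := by
      symm
      refine Fintype.sum_equiv finSigmaFinEquiv _ _ (fun p => ?_)
      rw [num_reindex (finSigmaFinEquiv) (comp f g)]
      simp
    rw [h1, Finset.sum_div, Fintype.sum_sigma]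
    have h2 : ∀ a : Fin n, (∑ b : Fin (m a), num (comp f g) {(⟨a, b⟩ : Σ i, Fin (m i))} /
        2 ^ (∑ i, m i)) = num f {a} / 2 ^ n * W1 (g a) := by
      intro a
      unfold W1
      rw [Finset.sum_div, Finset.mul_sum]
      exact Finset.sum_congr rfl fun b _ => comp_single f g hg0 a b
    rw [Finset.sum_congr rfl fun a _ => h2 a]
    have h3 : ∀ a : Fin n, num f {a} / 2 ^ n * (r * Real.sqrt ((w a * M : ℕ) : ℝ)) ≤
        num f {a} / 2 ^ n * W1 (g a) := fun a =>
      mul_le_mul_of_nonneg_left (hgW a) (div_nonneg (hpos a) (by positivity))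
    refine le_trans ?_ (Finset.sum_le_sum fun a _ => h3 a)
    have h4 : (∑ a : Fin n, num f {a} / 2 ^ n * (r * Real.sqrt ((w a * M : ℕ) : ℝ)))
        = r * Real.sqrt M * ∑ a : Fin n, num f {a} / 2 ^ n * Real.sqrt (w a) := by
      rw [Finset.mul_sum]
      refine Finset.sum_congr rfl fun a _ => ?_
      rw [Nat.cast_mul, Real.sqrt_mul (Nat.cast_nonneg _)]
      ring
    rw [h4, Nat.cast_mul, Real.sqrt_mul (Nat.cast_nonneg _)]
    calc r * ρ * (Real.sqrt D * Real.sqrt M) = r * Real.sqrt M * (ρ * Real.sqrt D) := by ring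
      _ ≤ _ := mul_le_mul_of_nonneg_left hρ (mul_nonneg hr (Real.sqrt_nonneg _))

end Crest.Agent.S85
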