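import Crest.Agent.S85.Bias

set_option autoImplicit false

/-! The limit calculus of biased events and the final step. -/

namespace Crest.Agent.S85

open Finset

/-- for every large budget `N` there is a function of mean `b`, degree `≤ N` and linear sum at
least `r m √N` -/
def St (r b m : ℝ) : Prop := ∃ N0 : ℕ, ∀ N : ℕ, N0 ≤ N →
  ∃ (n : ℕ) (f : (Fin n → Bool) → Bool), GoodB f b N (r * m * Real.sqrt N)

/-- input of a gate with weight `w` and fixed extra degree `c` -/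
def Inp (r b m : ℝ) (w c : ℕ) : Prop := ∃ M0 : ℕ, ∀ M : ℕ, M0 ≤ M →
  ∃ (n : ℕ) (g : (Fin n → Bool) → Bool),
    GoodB g b (w * M + c) (r * m * Real.sqrt ((w * M : ℕ) : ℝ))

lemma St.mono {r b m m' : ℝ} (hr : 0 ≤ r) (hm : m' ≤ m) (h : St r b m) : St r b m' := by
  obtain ⟨N0, h⟩ := h
  refine ⟨N0, fun N hN => ?_⟩
  obtain ⟨n, f, hf⟩ := h N hN
  exact ⟨n, f, hf.mono le_rfl
    (mul_le_mul_of_nonneg_right (mul_le_mul_of_nonneg_left hm hr) (Real.sqrt_nonneg _))⟩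

lemma St.inp {r b m : ℝ} {w : ℕ} (hw : 1 ≤ w) (h : St r b m) : Inp r b m w 0 := by
  obtain ⟨N0, h⟩ := h
  refine ⟨N0, fun M hM => ?_⟩
  obtain ⟨n, f, hf⟩ := h (w * M) (le_trans hM (Nat.le_mul_of_pos_left M hw))
  exact ⟨n, f, hf⟩

lemma inp_fixed {r b m : ℝ} {c n : ℕ} (g : (Fin n → Bool) → Bool) (h : GoodB g b c 0) :
    Inp r b m 0 c := by
  refine ⟨0, fun M _ => ⟨n, g, ?_⟩⟩
  refine h.mono (by simp) ?_
  simp

/-- dictator as a fixed (free) selector -/
lemma dict_fixed : GoodB (fun x : Fin 1 → Bool => x 0) 0 1 0 := by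
  refine ⟨?_, ?_, ?_⟩
  · have := sum_chi ({0} : Finset (Fin 1)) (Finset.singleton_ne_empty 0)
    simpa using this
  · intro S hS
    have : S.card ≤ 1 := by
      simpa using Finset.card_le_univ S
    omega
  · refine Finset.sum_nonneg (fun i _ => div_nonneg (Finset.sum_nonneg (fun x _ => ?_))
      (by positivity))
    have : i = 0 := Subsingleton.elim _ _
    rw [this, sg_sq]
    norm_num

lemma const_fixed (c : Bool) : GoodB (fun _ : Fin 0 → Bool => c) (sg c) 0 0 := by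
  refine ⟨?_, ?_, ?_⟩
  · simp
  · intro S hS
    have : S.card ≤ 0 := by
      simpa using Finset.card_le_univ S
    omega
  · simp

/-- **gate rule** -/
theorem gate {n0 : ℕ} (f : (Fin n0 → Bool) → Bool) (b m : Fin n0 → ℝ) (w c : Fin n0 → ℕ)
    (D : ℕ) (hD : 1 ≤ D)
    (supp : ∀ S : Finset (Fin n0), D < ∑ i ∈ S, w i → cf f S = 0)
    (hpos : ∀ i, 0 ≤ der f b i) (r : ℝ) (hr : 0 ≤ r)
    (hin : ∀ i, Inp r (b i) (m i) (w i) (c i)) (m' : ℝ) (hm0 : 0 ≤ m')
    (hA0 : 0 ≤ ∑ i, der f b i * (m i * Real.sqrt (w i)))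
    (hm' : m' = 0 ∨ m' * Real.sqrt D < ∑ i, der f b i * (m i * Real.sqrt (w i))) :
    St r (ext f b) m' := by
  set A : ℝ := ∑ i, der f b i * (m i * Real.sqrt (w i)) with hA
  have hDr : (0 : ℝ) < D := by exact_mod_cast hD
  set Cc : ℕ := ∑ i, c i with hCc
  choose M0 hM0 using hin
  set M1 : ℕ := ∑ i, M0 i with hM1
  have hM0le : ∀ i, M0 i ≤ M1 := fun i => Finset.single_le_sum (fun _ _ => Nat.zero_le _)
    (Finset.mem_univ i)
  obtain ⟨N1, hN1⟩ := exists_nat_ge (A ^ 2 * ((Cc : ℝ) + D) / (A ^ 2 - m' ^ 2 * D))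
  refine ⟨N1 + Cc + D * M1, fun N hN => ?_⟩
  set M : ℕ := (N - Cc) / D with hM
  have hMM1 : M1 ≤ M := by
    rw [hM, Nat.le_div_iff_mul_le (by omega)]
    have : M1 * D = D * M1 := Nat.mul_comm _ _
    omega
  have hMD : M * D + Cc ≤ N := by
    have h1 : M * D ≤ N - Cc := Nat.div_mul_le_self _ _
    omega
  have hMD2 : N < M * D + D + Cc := by
    have h1 : N - Cc < (M + 1) * D := by
      exact (Nat.div_lt_iff_lt_mul (by omega)).mp (Nat.lt_succ_self _)
    have h2 : (M + 1) * D = M * D + D := by ring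
    omega
  have hg : ∀ i, ∃ (n : ℕ) (g : (Fin n → Bool) → Bool),
      GoodB g (b i) (w i * M + c i) (r * m i * Real.sqrt ((w i * M : ℕ) : ℝ)) :=
    fun i => hM0 i M (le_trans (hM0le i) hMM1)
  choose n g hg using hg
  have hc := compB f g b (fun i => w i * M + c i) _ hg N (by
    intro S hS
    apply supp S
    by_contra hcon
    push Not at hcon
    have h1 : ∑ i ∈ S, (w i * M + c i) = M * ∑ i ∈ S, w i + ∑ i ∈ S, c i := by
      rw [Finset.sum_add_distrib, Finset.mul_sum]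
      congr 1
      exact Finset.sum_congr rfl (fun i _ => Nat.mul_comm _ _)
    have h2 : M * ∑ i ∈ S, w i ≤ M * D := Nat.mul_le_mul_left _ hcon
    have h3 : ∑ i ∈ S, c i ≤ Cc := Finset.sum_le_sum_of_subset (Finset.subset_univ S)
    omega) hpos
  refine ⟨Fintype.card (Σ i, Fin (n i)), _, (hc.mono le_rfl ?_).equiv
    (Fintype.equivFin (Σ i, Fin (n i)))⟩
  have h1 : ∀ i, der f b i * (r * m i * Real.sqrt ((w i * M : ℕ) : ℝ))
      = (r * Real.sqrt M) * (der f b i * (m i * Real.sqrt (w i))) := by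
    intro i
    push_cast
    rw [Real.sqrt_mul (Nat.cast_nonneg _)]
    ring
  simp_rw [h1]
  rw [← Finset.mul_sum, ← hA, mul_assoc, mul_assoc]
  refine mul_le_mul_of_nonneg_left ?_ hr
  rcases hm' with hm' | hm'
  · rw [hm', zero_mul]
    exact mul_nonneg (Real.sqrt_nonneg _) hA0
  have hgap : m' ^ 2 * D < A ^ 2 := by
    have h1 : (m' * Real.sqrt D) ^ 2 < A ^ 2 :=
      pow_lt_pow_left₀ hm' (mul_nonneg hm0 (Real.sqrt_nonneg _)) two_ne_zero
    rwa [mul_pow, Real.sq_sqrt hDr.le] at h1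
  -- m' √N ≤ √M A
  have hNr : (N : ℝ) ≤ M * D + D + Cc := by exact_mod_cast hMD2.le
  have hNbig : A ^ 2 * ((Cc : ℝ) + D) ≤ N * (A ^ 2 - m' ^ 2 * D) := by
    have h2 : A ^ 2 * ((Cc : ℝ) + D) / (A ^ 2 - m' ^ 2 * D) ≤ N :=
      hN1.trans (by exact_mod_cast (by omega : N1 ≤ N))
    rwa [div_le_iff₀ (by linarith)] at h2
  have h3 : m' ^ 2 * N ≤ A ^ 2 * M := by
    have h4 : A ^ 2 * (N : ℝ) ≤ A ^ 2 * (M * D + D + Cc) :=
      mul_le_mul_of_nonneg_left hNr (sq_nonneg A)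
    have h5 : m' ^ 2 * N * D ≤ A ^ 2 * M * D := by nlinarith
    exact le_of_mul_le_mul_right h5 hDr
  have h6 : (m' * Real.sqrt N) ^ 2 ≤ (Real.sqrt M * A) ^ 2 := by
    rw [mul_pow, mul_pow, Real.sq_sqrt (Nat.cast_nonneg _), Real.sq_sqrt (Nat.cast_nonneg _)]
    linarith
  exact le_of_sq_le_sq h6 (mul_nonneg (Real.sqrt_nonneg _) hA0)

/-- base state -/
lemma St_base : St (1 / 3) 0 1 := by
  refine ⟨1, fun N hN => ?_⟩
  obtain ⟨n, f, hf⟩ := base_third N hN
  exact ⟨n, f, by simpa using hf.toB⟩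

/-- **a winning step proves S0085** -/
theorem win_of_step (ρ : ℝ) (hρ : 1 < ρ) (step : ∀ r : ℝ, 0 < r → St r 0 1 → St r 0 ρ)
    (C : ℝ) (_hC : 0 < C) :
    ∃ n : ℕ, ∃ f : (Fin n → Bool) → Bool, ∃ d : ℕ,
      (∃ x y, f x ≠ f y) ∧
      (∀ S : Finset (Fin n), d < S.card →
        ∑ x : Fin n → Bool, ((if f x then (1 : ℝ) else -1) * ∏ i ∈ S, (if x i then (1 : ℝ) else -1)) = 0) ∧
      C * Real.sqrt d <
        ∑ i : Fin n, (∑ x : Fin n → Bool, ((if f x then (1 : ℝ) else -1) * (if x i then (1 : ℝ) else -1))) / 2 ^ n := by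
  have hρ0 : 0 < ρ := by linarith
  have hit : ∀ j : ℕ, St (1 / 3 * ρ ^ j) 0 1 := by
    intro j
    induction j with
    | zero => simpa using St_base
    | succ j ih =>
      obtain ⟨N0, h⟩ := step (1 / 3 * ρ ^ j) (by positivity) ih
      refine ⟨N0, fun N hN => ?_⟩
      obtain ⟨n, f, hf⟩ := h N hN
      refine ⟨n, f, hf.mono le_rfl (le_of_eq ?_)⟩
      ring
  obtain ⟨j, hj⟩ := pow_unbounded_of_one_lt (3 * C) hρ
  obtain ⟨N0, h⟩ := hit j
  obtain ⟨n, g, hg'⟩ := h (N0 + 1) (by omega)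
  have hg := hg'.toGood
  refine ⟨n, g, N0 + 1, ?_, ?_, ?_⟩
  · by_contra hcon
    push Not at hcon
    have h0 := hg.bal
    have h1 : ∀ x, sg (g x) = sg (g (fun _ => false)) := fun x => by rw [hcon x]
    simp_rw [h1] at h0
    simp only [Finset.sum_const, nsmul_eq_mul] at h0
    rcases mul_eq_zero.mp h0 with h2 | h2
    · have : (Finset.univ : Finset (Fin n → Bool)).card ≠ 0 := by
        simp
      exact this (by exact_mod_cast h2)
    · cases hb : g (fun _ => false) <;> simp [sg, hb] at h2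
  · intro S hS
    exact hg.deg S hS
  · refine lt_of_lt_of_le ?_ ((hg.wt).trans (le_of_eq ?_))
    · have hs : 0 < Real.sqrt ((N0 + 1 : ℕ) : ℝ) :=
        Real.sqrt_pos.mpr (by positivity)
      refine mul_lt_mul_of_pos_right ?_ hs
      linarith
    · simp [sg]

end Crest.Agent.S85
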