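import Crest.Agent.S85.Limit

set_option autoImplicit false

/-! The `Reach` calculus. -/

namespace Crest.Agent.S85

open Finset

/-- asymptotically reachable states: mean `b`, linear sum `≈ m √degree` -/
def Reach (b m : ℝ) : Prop := ∀ m' : ℝ, 0 ≤ m' → (m' < m ∨ m' = 0) → St 1 b m'

lemma Reach.mono {b m m' : ℝ} (h : Reach b m) (hm : m' ≤ m) : Reach b m' := by
  intro t ht ht'
  refine h t ht ?_
  rcases ht' with h1 | h1
  · exact Or.inl (lt_of_lt_of_le h1 hm)
  · exact Or.inr h1

lemma St.of_fixed {b : ℝ} {c n : ℕ} (g : (Fin n → Bool) → Bool) (h : GoodB g b c 0) :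
    St 1 b 0 := by
  refine ⟨c, fun N hN => ⟨n, g, h.mono hN (by simp)⟩⟩

lemma Reach.of_fixed {b : ℝ} {c n : ℕ} (g : (Fin n → Bool) → Bool) (h : GoodB g b c 0) :
    Reach b 0 := by
  intro t ht ht'
  have : t = 0 := by
    rcases ht' with h1 | h1
    · linarith
    · exact h1
  rw [this]
  exact St.of_fixed g h

/-- (R0) constants -/
lemma Reach.one : Reach 1 0 := by
  have := Reach.of_fixed _ (const_fixed true)
  simpa [sg] using this

lemma Reach.neg_one : Reach (-1) 0 := by
  have := Reach.of_fixed _ (const_fixed false)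
  simpa [sg] using this

/-- (R0) a free selector -/
lemma Reach.zero : Reach 0 0 := Reach.of_fixed _ dict_fixed

/-- (R0) base -/
lemma Reach.base : Reach 0 (1 / 3) := by
  intro t ht ht'
  have h1 : St 1 0 (1 / 3) := by
    obtain ⟨N0, h⟩ := St_base
    refine ⟨N0, fun N hN => ?_⟩
    obtain ⟨n, f, hf⟩ := h N hN
    exact ⟨n, f, by simpa using hf⟩
  refine h1.mono (by norm_num) ?_
  rcases ht' with h | h
  · exact h.le
  · rw [h]
    norm_num

lemma sg_not (c : Bool) : sg (!c) = - sg c := by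
  cases c <;> simp [sg]

lemma GoodB.neg {n : ℕ} {f : (Fin n → Bool) → Bool} {b : ℝ} {d : ℕ} {W : ℝ}
    (h : GoodB f b d W) : GoodB (fun x => !(f (fun i => !(x i)))) (-b) d W := by
  have key : ∀ F : (Fin n → Bool) → ℝ, ∑ x : Fin n → Bool, F (fun i => !(x i)) = ∑ x, F x := by
    intro F
    have hinv : Function.Involutive (fun (x : Fin n → Bool) (i : Fin n) => !(x i)) := by
      intro x
      funext i
      simp
    exact Fintype.sum_equiv hinv.toPerm _ _ (fun x => rfl)
  refine ⟨?_, ?_, ?_⟩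
  · simp only [sg_not]
    rw [Finset.sum_neg_distrib, key (fun x => sg (f x)), h.mean]
    ring
  · intro S hS
    have h1 : ∀ x : Fin n → Bool, sg (!(f (fun i => !(x i)))) * ∏ i ∈ S, sg (x i)
        = (-1) ^ (S.card + 1) * (sg (f (fun i => !(x i))) * ∏ i ∈ S, sg (!(x i))) := by
      intro x
      simp only [sg_not]
      rw [Finset.prod_neg]
      have h2 : ((-1 : ℝ) ^ S.card) * ((-1) ^ S.card) = 1 := by
        rw [← mul_pow]
        norm_num
      rw [pow_succ]
      linear_combination (sg (f (fun i => !(x i))) * ∏ i ∈ S, sg (x i)) * h2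
    rw [Finset.sum_congr rfl (fun x _ => h1 x), ← Finset.mul_sum,
      key (fun x => sg (f x) * ∏ i ∈ S, sg (x i)), h.deg S hS, mul_zero]
  · refine h.wt.trans (le_of_eq ?_)
    refine Finset.sum_congr rfl (fun i _ => ?_)
    congr 1
    rw [← key (fun x => sg (f x) * sg (x i))]
    refine Finset.sum_congr rfl (fun x _ => ?_)
    simp only [sg_not]
    ring

/-- (R0) negation -/
lemma Reach.neg {b m : ℝ} (h : Reach b m) : Reach (-b) m := by
  intro t ht ht'
  obtain ⟨N0, h1⟩ := h t ht ht'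
  refine ⟨N0, fun N hN => ?_⟩
  obtain ⟨n, f, hf⟩ := h1 N hN
  exact ⟨n, _, hf.neg⟩

/-- input with zero weight or positive weight -/
lemma Reach.inp {b m m' : ℝ} (h : Reach b m) (hm' : 0 ≤ m') (hlt : m' < m ∨ m' = 0) (w : ℕ) :
    ∃ c : ℕ, Inp 1 b m' w c := by
  obtain ⟨N0, hN⟩ := h m' hm' hlt
  rcases Nat.eq_zero_or_pos w with hw | hw
  · obtain ⟨n, f, hf⟩ := hN N0 le_rfl
    refine ⟨N0, ?_⟩
    rw [hw]
    exact inp_fixed f (hf.mono le_rfl (by positivity))
  · exact ⟨0, St.inp hw ⟨N0, hN⟩⟩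

/-- (R2) **biased gate** with real weights -/
theorem Reach.gate {n0 : ℕ} (f : (Fin n0 → Bool) → Bool) (b m w : Fin n0 → ℝ)
    (hw : ∀ i, 0 ≤ w i) (hm : ∀ i, 0 ≤ m i)
    (supp : ∀ S : Finset (Fin n0), 1 < ∑ i ∈ S, w i → cf f S = 0)
    (hpos : ∀ i, 0 ≤ der f b i) (h : ∀ i, Reach (b i) (m i)) :
    Reach (ext f b) (∑ i, der f b i * (m i * Real.sqrt (w i))) := by
  intro m' hm0 hm'
  set A : ℝ := ∑ i, der f b i * (m i * Real.sqrt (w i)) with hA
  set B : ℝ := ∑ i, der f b i * m i with hB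
  have hA0 : 0 ≤ A := Finset.sum_nonneg (fun i _ =>
    mul_nonneg (hpos i) (mul_nonneg (hm i) (Real.sqrt_nonneg _)))
  have hB0 : 0 ≤ B := Finset.sum_nonneg (fun i _ => mul_nonneg (hpos i) (hm i))
  -- choose δ and K
  obtain ⟨δ, hδ0, hδ1, hδ⟩ : ∃ δ : ℝ, 0 < δ ∧ δ ≤ 1 / 2 ∧
      (m' = 0 ∨ m' < (1 - δ) * (A - B * δ)) := by
    rcases hm' with hlt | h0
    · have hAp : 0 < A := lt_of_le_of_lt hm0 hlt
      refine ⟨min (1 / 2) ((A - m') / (2 * (A + B + 1))), ?_, min_le_left _ _, Or.inr ?_⟩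
      · refine lt_min (by norm_num) (div_pos (by linarith) (by linarith))
      · set δ := min (1 / 2) ((A - m') / (2 * (A + B + 1))) with hδdef
        have h1 : δ ≤ (A - m') / (2 * (A + B + 1)) := min_le_right _ _
        have h0δ : 0 < δ := lt_min (by norm_num) (div_pos (by linarith) (by linarith))
        rw [le_div_iff₀ (by linarith)] at h1
        nlinarith [mul_nonneg hB0 (sq_nonneg δ), mul_pos h0δ hAp]
    · exact ⟨1 / 2, by norm_num, le_rfl, Or.inl h0⟩
  obtain ⟨K0, hK0⟩ := exists_nat_ge (1 / δ ^ 2)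
  set K : ℕ := K0 + 1 with hK
  have hKr : (1 / δ ^ 2) ≤ (K : ℝ) := hK0.trans (by rw [hK]; push_cast; linarith)
  have hKpos : (0 : ℝ) < K := by rw [hK]; positivity
  have hsK : 0 < Real.sqrt K := Real.sqrt_pos.mpr hKpos
  have hinvK : 1 / Real.sqrt K ≤ δ := by
    rw [div_le_iff₀ hsK]
    have h1 : 1 / δ ≤ Real.sqrt K := by
      rw [show 1 / δ = Real.sqrt ((1 / δ) ^ 2) by
        rw [Real.sqrt_sq (by positivity)]]
      refine Real.sqrt_le_sqrt ?_
      rw [div_pow, one_pow]
      exact hKr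
    rw [div_le_iff₀ hδ0] at h1
    linarith
  -- natural weights
  set wn : Fin n0 → ℕ := fun i => ⌊w i * K⌋₊ with hwn
  have hsq : ∀ i, Real.sqrt K * (Real.sqrt (w i) - δ) ≤ Real.sqrt (wn i) := by
    intro i
    have h1 : w i * K - 1 ≤ (wn i : ℝ) := (Nat.sub_one_lt_floor _).le
    have h2 : Real.sqrt (w i * K) ≤ Real.sqrt (wn i) + 1 := by
      have h3 : w i * K ≤ (Real.sqrt (wn i) + 1) ^ 2 := by
        have h4 := Real.sq_sqrt (Nat.cast_nonneg (α := ℝ) (wn i))
        nlinarith [Real.sqrt_nonneg (wn i : ℝ)]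
      calc Real.sqrt (w i * K) ≤ Real.sqrt ((Real.sqrt (wn i) + 1) ^ 2) := Real.sqrt_le_sqrt h3
        _ = Real.sqrt (wn i) + 1 := Real.sqrt_sq (by positivity)
    rw [Real.sqrt_mul (hw i)] at h2
    have h5 : 1 ≤ Real.sqrt K * δ := by
      rw [div_le_iff₀ hsK] at hinvK
      linarith
    nlinarith
  -- inputs
  have hin : ∀ i, ∃ c : ℕ, Inp 1 (b i) ((1 - δ) * m i) (wn i) c := by
    intro i
    refine (h i).inp (mul_nonneg (by linarith) (hm i)) ?_ (wn i)
    rcases (hm i).eq_or_lt with h0 | h0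
    · right
      rw [← h0, mul_zero]
    · left
      nlinarith
  choose c hc using hin
  have hsum0 : 0 ≤ ∑ i, der f b i * ((1 - δ) * m i * Real.sqrt (wn i)) :=
    Finset.sum_nonneg (fun i _ => mul_nonneg (hpos i)
      (mul_nonneg (mul_nonneg (by linarith) (hm i)) (Real.sqrt_nonneg _)))
  refine _root_.Crest.Agent.S85.gate f b (fun i => (1 - δ) * m i) wn c K (by omega) ?_ hpos 1
    zero_le_one hc m' hm0
    hsum0 ?_
  · intro S hS
    apply supp S
    have h1 : (K : ℝ) < ∑ i ∈ S, (wn i : ℝ) := by exact_mod_cast hS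
    have h2 : ∑ i ∈ S, (wn i : ℝ) ≤ ∑ i ∈ S, w i * K :=
      Finset.sum_le_sum (fun i _ => Nat.floor_le (mul_nonneg (hw i) hKpos.le))
    rw [← Finset.sum_mul] at h2
    have h3 : (K : ℝ) < (∑ i ∈ S, w i) * K := lt_of_lt_of_le h1 h2
    by_contra hcon
    push Not at hcon
    nlinarith
  · rcases hδ with h0 | hlt
    · exact Or.inl h0
    · right
      have h1 : ∑ i, der f b i * ((1 - δ) * m i * (Real.sqrt K * (Real.sqrt (w i) - δ)))
          ≤ ∑ i, der f b i * ((1 - δ) * m i * Real.sqrt (wn i)) :=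
        Finset.sum_le_sum (fun i _ => mul_le_mul_of_nonneg_left
          (mul_le_mul_of_nonneg_left (hsq i) (mul_nonneg (by linarith) (hm i))) (hpos i))
      have h2 : ∑ i, der f b i * ((1 - δ) * m i * (Real.sqrt K * (Real.sqrt (w i) - δ)))
          = Real.sqrt K * ((1 - δ) * (A - B * δ)) := by
        rw [hA, hB, Finset.sum_mul, ← Finset.sum_sub_distrib, Finset.mul_sum, Finset.mul_sum]
        refine Finset.sum_congr rfl (fun i _ => ?_)
        ring
      rw [h2] at h1
      refine lt_of_lt_of_le ?_ h1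
      rw [mul_comm]
      exact mul_lt_mul_of_pos_left hlt hsK

/-- (R3) **final step** -/
theorem Reach.final (ρ : ℝ) (hρ : 1 < ρ)
    (step : ∀ m0 : ℝ, 0 < m0 → Reach 0 m0 → Reach 0 (ρ * m0))
    (C : ℝ) (hC : 0 < C) :
    ∃ n : ℕ, ∃ f : (Fin n → Bool) → Bool, ∃ d : ℕ,
      (∃ x y, f x ≠ f y) ∧
      (∀ S : Finset (Fin n), d < S.card →
        ∑ x : Fin n → Bool, ((if f x then (1 : ℝ) else -1) * ∏ i ∈ S, (if x i then (1 : ℝ) else -1)) = 0) ∧
      C * Real.sqrt d <
        ∑ i : Fin n, (∑ x : Fin n → Bool, ((if f x then (1 : ℝ) else -1) * (if x i then (1 : ℝ) else -1))) / 2 ^ n := by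
  have hρ0 : 0 < ρ := by linarith
  have hit : ∀ j : ℕ, Reach 0 (ρ ^ j * (1 / 3)) := by
    intro j
    induction j with
    | zero => simpa using Reach.base
    | succ j ih =>
      have := step _ (by positivity) ih
      have h2 : ρ * (ρ ^ j * (1 / 3)) = ρ ^ (j + 1) * (1 / 3) := by ring
      rwa [h2] at this
  obtain ⟨j, hj⟩ := pow_unbounded_of_one_lt (3 * (C + 1)) hρ
  obtain ⟨N0, h⟩ := hit j (C + 1) (by linarith) (Or.inl (by linarith))
  obtain ⟨n, g, hg'⟩ := h (N0 + 1) (by omega)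
  have hg := hg'.toGood
  refine ⟨n, g, N0 + 1, ?_, ?_, ?_⟩
  · by_contra hcon
    push Not at hcon
    have h0 := hg.bal
    have h1 : ∀ x, sg (g x) = sg (g (fun _ => false)) := fun x => by rw [hcon x]
    simp_rw [h1] at h0
    simp only [Finset.sum_const, nsmul_eq_mul] at h0
    rcases mul_eq_zero.mp h0 with h2 | h2
    · have : (Finset.univ : Finset (Fin n → Bool)).card ≠ 0 := by
        simp
      exact this (by exact_mod_cast h2)
    · cases hb : g (fun _ => false) <;> simp [sg, hb] at h2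
  · intro S hS
    exact hg.deg S hS
  · refine lt_of_lt_of_le ?_ ((hg.wt).trans (le_of_eq ?_))
    · have hs : 0 < Real.sqrt ((N0 + 1 : ℕ) : ℝ) :=
        Real.sqrt_pos.mpr (by positivity)
      refine mul_lt_mul_of_pos_right ?_ hs
      linarith
    · simp [sg]

/-- multiplexer gate -/
def mux (x : Fin 3 → Bool) : Bool := if x 0 then x 1 else x 2

lemma sum_fin3 (F : (Fin 3 → Bool) → ℝ) :
    ∑ x, F x = F ![true, true, true] + F ![true, true, false] + F ![true, false, true]
      + F ![true, false, false] + F ![false, true, true] + F ![false, true, false]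
      + F ![false, false, true] + F ![false, false, false] := by
  have h : (Finset.univ : Finset (Fin 3 → Bool)) = {![true, true, true], ![true, true, false],
      ![true, false, true], ![true, false, false], ![false, true, true], ![false, true, false],
      ![false, false, true], ![false, false, false]} := by decide
  rw [h]
  repeat rw [Finset.sum_insert (by decide)]
  rw [Finset.sum_singleton]
  ring

/-- (R1) mixing, ordered version -/
lemma Reach.mix_aux {b1 b2 m1 m2 : ℝ} (h1 : Reach b1 m1) (h2 : Reach b2 m2)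
    (hm1 : 0 ≤ m1) (hm2 : 0 ≤ m2) (hb : b2 ≤ b1) :
    Reach ((b1 + b2) / 2) ((m1 + m2) / 2) := by
  have he : ext mux ![0, b1, b2] = (b1 + b2) / 2 := by
    simp only [ext, sum_fin3, Fin.prod_univ_three, mux, sg]
    simp
    ring
  have hd0 : der mux ![0, b1, b2] 0 = (b1 - b2) / 2 := by
    have hE : (Finset.univ : Finset (Fin 3)).erase 0 = {1, 2} := by decide
    simp only [der, sum_fin3, hE, mux, sg]
    simp
    ring
  have hd1 : der mux ![0, b1, b2] 1 = 1 / 2 := by
    have hE : (Finset.univ : Finset (Fin 3)).erase 1 = {0, 2} := by decide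
    simp only [der, sum_fin3, hE, mux, sg]
    simp
    ring
  have hd2 : der mux ![0, b1, b2] 2 = 1 / 2 := by
    have hE : (Finset.univ : Finset (Fin 3)).erase 2 = {0, 1} := by decide
    simp only [der, sum_fin3, hE, mux, sg]
    simp
    ring
  have hsupp : ∀ S : Finset (Fin 3), 1 < ∑ i ∈ S, (![0, 1, 1] : Fin 3 → ℝ) i → cf mux S = 0 := by
    intro S hS
    have hmem : (1 : Fin 3) ∈ S ∧ (2 : Fin 3) ∈ S := by
      by_contra hcon
      rw [not_and_or] at hcon
      rcases hcon with hc | hc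
      · have hsub : S ⊆ {0, 2} := by
          intro i hi
          fin_cases i
          · simp
          · exact absurd hi hc
          · simp
        have := Finset.sum_le_sum_of_subset_of_nonneg (f := (![0, 1, 1] : Fin 3 → ℝ)) hsub
          (by intro i _ _; fin_cases i <;> simp)
        simp at this
        linarith
      · have hsub : S ⊆ {0, 1} := by
          intro i hi
          fin_cases i
          · simp
          · simp
          · exact absurd hi hc
        have := Finset.sum_le_sum_of_subset_of_nonneg (f := (![0, 1, 1] : Fin 3 → ℝ)) hsub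
          (by intro i _ _; fin_cases i <;> simp)
        simp at this
        linarith
    by_cases h0 : (0 : Fin 3) ∈ S
    · have hS' : S = {0, 1, 2} := by
        ext i
        fin_cases i <;> simp [h0, hmem.1, hmem.2]
      subst hS'
      simp only [cf, sum_fin3, mux, sg]
      simp
    · have hS' : S = {1, 2} := by
        ext i
        fin_cases i <;> simp [h0, hmem.1, hmem.2]
      subst hS'
      simp only [cf, sum_fin3, mux, sg]
      simp
  have hR := Reach.gate mux ![0, b1, b2] ![0, m1, m2] ![0, 1, 1]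
    (by intro i; fin_cases i <;> simp) (by intro i; fin_cases i <;> simp [hm1, hm2]) hsupp
    (by
      intro i
      fin_cases i
      · show 0 ≤ der mux ![0, b1, b2] 0
        rw [hd0]
        linarith
      · show 0 ≤ der mux ![0, b1, b2] 1
        rw [hd1]
        norm_num
      · show 0 ≤ der mux ![0, b1, b2] 2
        rw [hd2]
        norm_num)
    (by
      intro i
      fin_cases i
      · exact Reach.zero
      · exact h1
      · exact h2)
  rw [he, Fin.sum_univ_three, hd0, hd1, hd2] at hR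
  have hfin : (b1 - b2) / 2 * ((![0, m1, m2] : Fin 3 → ℝ) 0 * Real.sqrt ((![0, 1, 1] : Fin 3 → ℝ) 0))
      + 1 / 2 * ((![0, m1, m2] : Fin 3 → ℝ) 1 * Real.sqrt ((![0, 1, 1] : Fin 3 → ℝ) 1))
      + 1 / 2 * ((![0, m1, m2] : Fin 3 → ℝ) 2 * Real.sqrt ((![0, 1, 1] : Fin 3 → ℝ) 2))
      = (m1 + m2) / 2 := by
    simp
    ring
  rwa [hfin] at hR

/-- (R1) mixing -/
theorem Reach.mix {b1 b2 m1 m2 : ℝ} (h1 : Reach b1 m1) (h2 : Reach b2 m2)
    (hm1 : 0 ≤ m1) (hm2 : 0 ≤ m2) :
    Reach ((b1 + b2) / 2) ((m1 + m2) / 2) := by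
  rcases le_total b2 b1 with h | h
  · exact Reach.mix_aux h1 h2 hm1 hm2 h
  · have := Reach.mix_aux h2 h1 hm2 hm1 h
    rwa [add_comm b2 b1, add_comm m2 m1] at this

end Crest.Agent.S85
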