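import Crest.Agent.S85.Comp
import Crest.Agent.S85.BaseMaj

set_option autoImplicit false

/-! Iteration: one good weighted base function gives the unbounded ratio. -/

namespace Crest.Agent.S85

open Finset

/-- the iteration -/
theorem iterate {n0 : ℕ} (f : (Fin n0 → Bool) → Bool) (hbal : ∑ x, sg (f x) = 0)
    (w : Fin n0 → ℕ) (hw : ∀ i, 1 ≤ w i) (D : ℕ) (hD : 1 ≤ D)
    (supp : ∀ S : Finset (Fin n0), D < ∑ i ∈ S, w i →
      ∑ x, (sg (f x) * ∏ i ∈ S, sg (x i)) = 0)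
    (hpos : ∀ i, 0 ≤ ∑ x, sg (f x) * sg (x i)) (ρ c : ℝ)
    (hρ : ρ * Real.sqrt D = ∑ i, (∑ x, sg (f x) * sg (x i)) / 2 ^ n0 * Real.sqrt (w i))
    (base : ∀ N : ℕ, 1 ≤ N → ∃ (n : ℕ) (g : (Fin n → Bool) → Bool), Good g N (c * Real.sqrt N))
    (j : ℕ) : ∀ N : ℕ, 1 ≤ N → ∃ (n : ℕ) (g : (Fin n → Bool) → Bool),
      Good g (D ^ j * N) (c * ρ ^ j * Real.sqrt ((D ^ j * N : ℕ) : ℝ)) := by
  induction j with
  | zero =>
    intro N hN
    obtain ⟨n, g, hg⟩ := base N hN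
    refine ⟨n, g, ?_⟩
    simpa using hg
  | succ j ih =>
    intro N hN
    have hin : ∀ i, ∃ (n : ℕ) (g : (Fin n → Bool) → Bool),
        Good g (D ^ j * (w i * N)) (c * ρ ^ j * Real.sqrt ((D ^ j * (w i * N) : ℕ) : ℝ)) :=
      fun i => ih (w i * N) (Nat.mul_pos (hw i) hN)
    choose n g hg using hin
    obtain ⟨m, F, hF⟩ := comp_fin f hbal n g (fun i => D ^ j * (w i * N)) _ hg
      (D ^ (j + 1) * N) (by
        intro S hS
        apply supp S
        by_contra hcon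
        push Not at hcon
        have h1 : ∑ i ∈ S, D ^ j * (w i * N) = D ^ j * N * ∑ i ∈ S, w i := by
          rw [Finset.mul_sum]
          refine Finset.sum_congr rfl (fun i _ => by ring)
        have h2 : D ^ j * N * ∑ i ∈ S, w i ≤ D ^ j * N * D := Nat.mul_le_mul_left _ hcon
        rw [h1] at hS
        have h3 : D ^ (j + 1) * N = D ^ j * N * D := by ring
        rw [h3] at hS
        exact absurd h2 (not_le.mpr hS)) hpos
    refine ⟨m, F, hF.mono le_rfl (le_of_eq ?_)⟩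
    have h1 : ∀ i, (∑ x, sg (f x) * sg (x i)) / 2 ^ n0
        * (c * ρ ^ j * Real.sqrt ((D ^ j * (w i * N) : ℕ) : ℝ))
        = (c * ρ ^ j * Real.sqrt ((D ^ j * N : ℕ) : ℝ)) *
          ((∑ x, sg (f x) * sg (x i)) / 2 ^ n0 * Real.sqrt (w i)) := by
      intro i
      have : ((D ^ j * (w i * N) : ℕ) : ℝ) = ((D ^ j * N : ℕ) : ℝ) * (w i : ℝ) := by
        push_cast
        ring
      rw [this, Real.sqrt_mul (Nat.cast_nonneg _)]
      ring
    simp_rw [h1]
    rw [← Finset.mul_sum, ← hρ]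
    have h4 : ((D ^ (j + 1) * N : ℕ) : ℝ) = ((D ^ j * N : ℕ) : ℝ) * (D : ℝ) := by
      push_cast
      ring
    rw [h4, Real.sqrt_mul (Nat.cast_nonneg _)]
    ring

/-- **from_base**: a balanced Boolean function with positive integer weights, weighted degree `D`
and weighted linear sum larger than `√D` proves S0085. -/
theorem from_base {n0 : ℕ} (f : (Fin n0 → Bool) → Bool) (hbal : ∑ x, sg (f x) = 0)
    (w : Fin n0 → ℕ) (hw : ∀ i, 1 ≤ w i) (D : ℕ) (hD : 1 ≤ D)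
    (supp : ∀ S : Finset (Fin n0), D < ∑ i ∈ S, w i →
      ∑ x, (sg (f x) * ∏ i ∈ S, sg (x i)) = 0)
    (hpos : ∀ i, 0 ≤ ∑ x, sg (f x) * sg (x i))
    (hgain : Real.sqrt D < ∑ i, (∑ x, sg (f x) * sg (x i)) / 2 ^ n0 * Real.sqrt (w i))
    (C : ℝ) (hC : 0 < C) :
    ∃ n : ℕ, ∃ f : (Fin n → Bool) → Bool, ∃ d : ℕ,
      (∃ x y, f x ≠ f y) ∧
      (∀ S : Finset (Fin n), d < S.card →
        ∑ x : Fin n → Bool, ((if f x then (1 : ℝ) else -1) * ∏ i ∈ S, (if x i then (1 : ℝ) else -1)) = 0) ∧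
      C * Real.sqrt d <
        ∑ i : Fin n, (∑ x : Fin n → Bool, ((if f x then (1 : ℝ) else -1) * (if x i then (1 : ℝ) else -1))) / 2 ^ n := by
  have hD0 : 0 < Real.sqrt D := Real.sqrt_pos.mpr (by exact_mod_cast hD)
  set A : ℝ := ∑ i, (∑ x, sg (f x) * sg (x i)) / 2 ^ n0 * Real.sqrt (w i) with hA
  have hρ1 : 1 < A / Real.sqrt D := by rwa [lt_div_iff₀ hD0, one_mul]
  obtain ⟨j, hj⟩ := pow_unbounded_of_one_lt (3 * C) hρ1
  obtain ⟨n, g, hg⟩ := iterate f hbal w hw D hD supp hpos (A / Real.sqrt D) (1 / 3)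
    (by rw [div_mul_cancel₀ _ hD0.ne']) base_third j 1 le_rfl
  refine ⟨n, g, D ^ j * 1, ?_, ?_, ?_⟩
  · by_contra hcon
    push Not at hcon
    have h0 := hg.bal
    have h1 : ∀ x, sg (g x) = sg (g (fun _ => false)) := fun x => by rw [hcon x]
    simp_rw [h1] at h0
    simp only [Finset.sum_const, nsmul_eq_mul] at h0
    rcases mul_eq_zero.mp h0 with h2 | h2
    · have : (Finset.univ : Finset (Fin n → Bool)).card ≠ 0 := by
        simp
      exact this (by exact_mod_cast h2)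
    · cases hb : g (fun _ => false) <;> simp [sg, hb] at h2
  · intro S hS
    exact hg.deg S hS
  · refine lt_of_lt_of_le ?_ ((hg.wt).trans (le_of_eq ?_))
    · have hs : 0 < Real.sqrt ((D ^ j * 1 : ℕ) : ℝ) :=
        Real.sqrt_pos.mpr (by
          have : 0 < D ^ j * 1 := by positivity
          exact_mod_cast this)
      refine mul_lt_mul_of_pos_right ?_ hs
      linarith
    · simp [sg]

end Crest.Agent.S85
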