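import Crest.Agent.S85.Base

set_option autoImplicit false

/-!
# S0085: kernel checker (Walsh transform on perfect binary trees) and the final reduction
-/
namespace Crest.Agent.S85

/-- perfect binary trees with integer leaves -/
def BT : ℕ → Type
  | 0 => ℤ
  | n + 1 => BT n × BT n

/-- the value at a point -/
def val : (n : ℕ) → BT n → (Fin n → Bool) → ℤ
  | 0, t, _ => t
  | n + 1, t, x => if x 0 then val n t.2 (fun i => x i.succ) else val n t.1 (fun i => x i.succ)

def badd : (n : ℕ) → BT n → BT n → BT n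
  | 0, a, b => Int.add a b
  | n + 1, a, b => (badd n a.1 b.1, badd n a.2 b.2)

def bsub : (n : ℕ) → BT n → BT n → BT n
  | 0, a, b => Int.sub a b
  | n + 1, a, b => (bsub n a.1 b.1, bsub n a.2 b.2)

/-- Walsh transform -/
def wht : (n : ℕ) → BT n → BT n
  | 0, t => t
  | n + 1, t => (badd n (wht n t.2) (wht n t.1), bsub n (wht n t.2) (wht n t.1))

theorem val_zero (t : BT 0) (x : Fin 0 → Bool) : val 0 t x = (show ℤ from t) := rfl

theorem val_succ (n : ℕ) (t : BT (n + 1)) (x : Fin (n + 1) → Bool) :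
    val (n + 1) t x = if x 0 then val n t.2 (fun i => x i.succ) else val n t.1 (fun i => x i.succ) :=
  rfl

theorem wht_succ (n : ℕ) (t : BT (n + 1)) :
    wht (n + 1) t = (badd n (wht n t.2) (wht n t.1), bsub n (wht n t.2) (wht n t.1)) := rfl

theorem val_badd : (n : ℕ) → (a b : BT n) → (x : Fin n → Bool) →
    val n (badd n a b) x = val n a x + val n b x
  | 0, a, b, _ => rfl
  | n + 1, a, b, x => by
    unfold val badd
    split_ifs <;> exact val_badd n _ _ _

theorem val_bsub : (n : ℕ) → (a b : BT n) → (x : Fin n → Bool) →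
    val n (bsub n a b) x = val n a x - val n b x
  | 0, a, b, _ => rfl
  | n + 1, a, b, x => by
    unfold val bsub
    split_ifs <;> exact val_bsub n _ _ _

/-- integer sign -/
def sz (b : Bool) : ℤ := if b then 1 else -1

theorem sum_cons {n : ℕ} (φ : (Fin (n + 1) → Bool) → ℤ) :
    ∑ x, φ x = ∑ x : Fin n → Bool, (φ (Fin.cons true x) + φ (Fin.cons false x)) := by
  have h1 : ∑ x, φ x = ∑ p : Bool × (Fin n → Bool), φ (Fin.cons p.1 p.2) := by
    symm
    exact Fintype.sum_equiv (Fin.consEquiv (fun _ => Bool)) _ _ (fun p => rfl)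
  rw [h1, Fintype.sum_prod_type, Fintype.sum_bool, ← Finset.sum_add_distrib]

theorem val_wht : (n : ℕ) → (t : BT n) → (S : Fin n → Bool) →
    val n (wht n t) S = ∑ x : Fin n → Bool, val n t x * ∏ i, (if S i then sz (x i) else 1)
  | 0, t, S => by
    rw [Fintype.sum_unique]
    simp only [Finset.univ_eq_empty, Finset.prod_empty, mul_one]
    rfl
  | n + 1, t, S => by
    rw [sum_cons]
    have h1 : ∀ (b : Bool) (x : Fin n → Bool),
        ∏ i, (if S i then sz ((Fin.cons b x : Fin (n + 1) → Bool) i) else 1)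
        = (if S 0 then sz b else 1) * ∏ i : Fin n, (if S i.succ then sz (x i) else 1) := by
      intro b x
      rw [Fin.prod_univ_succ]
      simp
    have h2 : ∀ x : Fin n → Bool, val (n + 1) t (Fin.cons true x) = val n t.2 x := by
      intro x; simp [val]
    have h3 : ∀ x : Fin n → Bool, val (n + 1) t (Fin.cons false x) = val n t.1 x := by
      intro x; simp [val]
    simp_rw [h1, h2, h3]
    rw [val_succ, wht_succ]
    have hs1 : sz true = 1 := rfl
    have hs2 : sz false = -1 := rfl
    split_ifs with hS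
    · rw [val_bsub, val_wht n, val_wht n, ← Finset.sum_sub_distrib]
      refine Finset.sum_congr rfl fun x _ => ?_
      rw [hs1, hs2]; ring
    · rw [val_badd, val_wht n, val_wht n, ← Finset.sum_add_distrib]
      refine Finset.sum_congr rfl fun x _ => ?_
      ring

/-- index of a point -/
def idx : (n : ℕ) → (Fin n → Bool) → ℕ
  | 0, _ => 0
  | n + 1, x => (if x 0 then 1 else 0) + 2 * idx n (fun i => x i.succ)

/-- tree of a truth table: leaf `x` is the bit `base + stride * idx x` of `B` -/
def mk (B : ℕ) : (n : ℕ) → ℕ → ℕ → BT n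
  | 0, base, _ => sz (B.testBit base)
  | n + 1, base, stride => (mk B n base (2 * stride), mk B n (base + stride) (2 * stride))

theorem val_mk (B : ℕ) : (n : ℕ) → (base stride : ℕ) → (x : Fin n → Bool) →
    val n (mk B n base stride) x = sz (B.testBit (base + stride * idx n x))
  | 0, base, stride, x => by
    change sz (B.testBit base) = _
    simp [idx]
  | n + 1, base, stride, x => by
    rw [val_succ]
    have e : idx (n + 1) x = (if x 0 then 1 else 0) + 2 * idx n (fun i => x i.succ) := rfl
    rw [e]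
    split_ifs with h
    · change val n (mk B n (base + stride) (2 * stride)) _ = _
      rw [val_mk B n]
      congr 2; ring
    · change val n (mk B n base (2 * stride)) _ = _
      rw [val_mk B n]
      congr 2; ring

/-- zero test -/
def isz : ℤ → Bool
  | Int.ofNat 0 => true
  | _ => false

theorem isz_spec (z : ℤ) (h : isz z = true) : z = 0 := by
  match z, h with
  | Int.ofNat 0, _ => rfl

/-- all coefficients of weight `> D` vanish -/
def chk (D : ℕ) : (n : ℕ) → List ℕ → ℕ → BT n → Bool
  | 0, _, acc, t => Nat.ble acc D || isz t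
  | n + 1, ws, acc, t => chk D n ws.tail acc t.1 && chk D n ws.tail (acc + ws.headD 0) t.2

theorem chk_spec (D : ℕ) : (n : ℕ) → (ws : List ℕ) → (acc : ℕ) → (t : BT n) →
    chk D n ws acc t = true → ∀ S : Fin n → Bool,
      D < acc + ∑ i : Fin n, (if S i then ws.getD i 0 else 0) → val n t S = 0
  | 0, ws, acc, t, h, S, hS => by
    simp only [Finset.univ_eq_empty, Finset.sum_empty, add_zero] at hS
    unfold chk at h
    rw [Bool.or_eq_true] at h
    rcases h with h | h
    · have := Nat.le_of_ble_eq_true h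
      omega
    · rw [val_zero]
      exact isz_spec _ h
  | n + 1, ws, acc, t, h, S, hS => by
    unfold chk at h
    rw [Bool.and_eq_true] at h
    have e : ∀ i : Fin n, ws.getD (i.succ : Fin (n+1)) 0 = ws.tail.getD i 0 := by
      intro i
      cases ws <;> simp
    have e0 : ws.getD ((0 : Fin (n+1)) : ℕ) 0 = ws.headD 0 := by
      cases ws <;> simp
    rw [Fin.sum_univ_succ] at hS
    simp_rw [e] at hS
    rw [e0] at hS
    rw [val_succ]
    split_ifs with h0
    · refine chk_spec D n ws.tail _ t.2 h.2 (fun i => S i.succ) ?_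
      rw [if_pos h0] at hS
      rw [add_assoc]; exact hS
    · refine chk_spec D n ws.tail _ t.1 h.1 (fun i => S i.succ) ?_
      rw [if_neg h0, zero_add] at hS
      exact hS

/-- the Boolean function of a truth table -/
def tf (B n : ℕ) (x : Fin n → Bool) : Bool := B.testBit (idx n x)

theorem num_tf (B n : ℕ) (S : Finset (Fin n)) :
    num (tf B n) S = ((val n (wht n (mk B n 0 1)) (fun i => decide (i ∈ S)) : ℤ) : ℝ) := by
  rw [val_wht]
  unfold num
  push_cast
  refine Finset.sum_congr rfl fun x _ => ?_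
  rw [val_mk]
  have h1 : ∀ b : Bool, sg b = ((sz b : ℤ) : ℝ) := by intro b; cases b <;> simp [sz]
  rw [zero_add, one_mul, h1]
  congr 1
  rw [← Finset.univ_inter S, ← Finset.prod_ite_mem]
  refine Finset.prod_congr rfl fun i _ => ?_
  by_cases hi : i ∈ S
  · simp [hi, h1]
  · simp [hi]

/-- **winning function given by a truth table** (`B` bit mask, `ws` weights) -/
theorem win (n B : ℕ) (ws : List ℕ) (D : ℕ) (cs : List ℤ)
    (hchk : chk D n ws 0 (wht n (mk B n 0 1)) = true)
    (h0 : val n (wht n (mk B n 0 1)) (fun _ => false) = 0)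
    (hcs : ∀ i : Fin n, val n (wht n (mk B n 0 1)) (fun j => decide (j = i)) = cs.getD i 0)
    (hw : ∀ i : Fin n, 1 ≤ ws.getD i 0) (hcs0 : ∀ i : Fin n, 0 ≤ cs.getD i 0) (hD : 1 ≤ D)
    (hgain : Real.sqrt D < ∑ i : Fin n, ((cs.getD i 0 : ℤ) : ℝ) / 2 ^ n * Real.sqrt ((ws.getD i 0 : ℕ) : ℝ))
    (C : ℝ) :
    ∃ n : ℕ, ∃ f : (Fin n → Bool) → Bool, ∃ d : ℕ,
      (∃ x y, f x ≠ f y) ∧
      (∀ S : Finset (Fin n), d < S.card →
        ∑ x : Fin n → Bool, ((if f x then (1 : ℝ) else -1) * ∏ i ∈ S, (if x i then (1 : ℝ) else -1)) = 0) ∧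
      C * Real.sqrt d <
        ∑ i : Fin n, (∑ x : Fin n → Bool, ((if f x then (1 : ℝ) else -1) * (if x i then (1 : ℝ) else -1))) / 2 ^ n := by
  have hsD : 0 < Real.sqrt (D : ℝ) := Real.sqrt_pos.2 (by exact_mod_cast hD)
  have hc : ∀ i : Fin n, num (tf B n) {i} = ((cs.getD i 0 : ℤ) : ℝ) := by
    intro i
    rw [num_tf, ← hcs i]
    congr 2
    ext j
    simp
  refine from_base (tf B n) (fun i => ws.getD i 0) D
    ((∑ i : Fin n, ((cs.getD i 0 : ℤ) : ℝ) / 2 ^ n * Real.sqrt ((ws.getD i 0 : ℕ) : ℝ)) / Real.sqrt D)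
    hw hD ?_ ?_ ?_ ?_ ?_ C
  · rw [lt_div_iff₀ hsD, one_mul]; exact hgain
  · rw [num_tf]
    have : (fun i : Fin n => decide (i ∈ (∅ : Finset (Fin n)))) = fun _ => false := by
      ext i; simp
    rw [this, h0]; simp
  · intro S hS
    rw [num_tf, chk_spec D n ws 0 _ hchk (fun i => decide (i ∈ S)) ?_]
    · simp
    · rw [zero_add]
      refine lt_of_lt_of_eq hS ?_
      rw [← Finset.univ_inter S, ← Finset.sum_ite_mem]
      refine Finset.sum_congr rfl fun i _ => ?_
      by_cases hi : i ∈ S <;> simp [hi]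
  · intro i
    rw [hc]; exact_mod_cast hcs0 i
  · rw [div_mul_cancel₀ _ hsD.ne']
    refine le_of_eq (Finset.sum_congr rfl fun i _ => ?_)
    rw [hc]

end Crest.Agent.S85
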